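import Vale.Agent.P166F.Low.Defs

/-!
P166: an orthonormal basis diagonalising the energy of the added spin away from its direction, and the
determinant and resolvent identities it gives.
-/

namespace Vale.Agent.P166F.Low

open Matrix Filter
open scoped Topology

variable {κ : Type} [Fintype κ] [DecidableEq κ] {dl v : κ → ℝ} {e : κ}

/-- Unit block norms. -/
structure Dirn (dl v : κ → ℝ) (e : κ) : Prop where
  slope : ∀ j, 0 ≤ dl j
  zero : dl e = 0
  unit : ∑ j, v j ^ 2 = 1
  pos : ∀ j, 0 ≤ v j

omit [DecidableEq κ] in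
lemma refl_sum {α : Type} [Fintype α] (a : κ → ℝ) (c : α → ℝ) (f : α → κ → ℝ) :
    refl a (fun i => ∑ l, c l * f l i) = fun i => ∑ l, c l * refl a (f l) i := by
  funext i
  simp only [refl, mul_sub, Finset.sum_sub_distrib, Finset.mul_sum, Finset.sum_div, Finset.sum_mul]
  congr 1
  rw [Finset.sum_comm]
  exact Finset.sum_congr rfl fun l _ => Finset.sum_congr rfl fun j _ => by ring

omit [DecidableEq κ] in
lemma refl_inner (a x y : κ → ℝ) : ∑ i, refl a x i * refl a y i = ∑ i, x i * y i := by
  simp only [refl]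
  set α := 2 * (∑ j, a j * x j) / (∑ j, a j ^ 2) with hα
  set β := 2 * (∑ j, a j * y j) / (∑ j, a j ^ 2) with hβ
  have e1 : ∑ i, (x i - α * a i) * (y i - β * a i) =
      (∑ i, x i * y i) - β * (∑ j, a j * x j) - α * (∑ j, a j * y j) + α * β * ∑ j, a j ^ 2 := by
    simp only [Finset.mul_sum, ← Finset.sum_sub_distrib, ← Finset.sum_add_distrib]
    exact Finset.sum_congr rfl fun i _ => by ring
  rw [e1, hα, hβ]
  rcases eq_or_ne (∑ j, a j ^ 2) 0 with h | h
  · simp [h]
  · field_simp
    ring

lemma frame_sum {α : Type} [Fintype α] (T : κ → ℝ) (c : α → ℝ) (f : α → κ → ℝ) :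
    frame e T (fun i => ∑ l, c l * f l i) = fun i => ∑ l, c l * frame e T (f l) i := by
  simp only [frame, refl_sum]

lemma frame_inner (T x y : κ → ℝ) : ∑ i, frame e T x i * frame e T y i = ∑ i, x i * y i := by
  simp only [frame, refl_inner]

/-- The image of the unit vector of `j`. -/
noncomputable def Fcol (e : κ) (T : κ → ℝ) (j : κ) : κ → ℝ :=
  frame e T fun i => if i = j then 1 else 0

lemma Fcol_self (hv : Dirn dl v e) : Fcol e v e = v := by
  funext i
  simp only [Fcol, frame, refl, mul_ite, mul_one, mul_zero, ite_pow, one_pow, ne_eq,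
    OfNat.ofNat_ne_zero, not_false_iff, zero_pow, Finset.sum_ite_eq', Finset.mem_univ, if_true]
  have hp : 0 < 1 + v e := by linarith [hv.pos e]
  have h1 : ∑ j, (v j + if j = e then 1 else 0) ^ 2 = 2 * (1 + v e) := by
    simp only [add_sq, ite_pow, one_pow, ne_eq, OfNat.ofNat_ne_zero, not_false_iff, zero_pow,
      Finset.sum_add_distrib, mul_ite, mul_one, mul_zero, Finset.sum_ite_eq', Finset.mem_univ,
      if_true, hv.unit]
    ring
  have h2 : ∑ j, (v j + if j = e then (1 : ℝ) else 0) *
      ((if j = e then 1 else 0) - if j = e then 2 / 1 else 0) = -(1 + v e) := by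
    rw [Finset.sum_eq_single e (fun j _ hj => by simp [hj]) (by simp)]
    simp
    ring
  rw [h1, h2]
  rcases eq_or_ne i e with rfl | h
  · simp only [if_true]
    field_simp
    ring
  · simp only [h, if_false]
    field_simp
    ring

/-- A basis of the hyperplane orthogonal to the spin, diagonal for the slopes. -/
structure Eig (dl v : κ → ℝ) (e : κ) where
  U : Matrix (Slot e) (Slot e) ℝ
  G : Slot e → κ → ℝ
  orthU : Uᵀ * U = 1
  frame_eq : ∀ (z : Slot e → ℝ) (s : ℝ) (k : κ),
    frame e v (fun j => if h : j = e then s else (U *ᵥ z) ⟨j, h⟩) k = s * v k + ∑ i, z i * G i k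
  orth : ∀ i j, ∑ k, G i k * G j k = if i = j then 1 else 0
  perp : ∀ i, ∑ k, v k * G i k = 0
  diag : ∀ i j, i ≠ j → ∑ k, dl k * G i k * G j k = 0

theorem exists_eig (hv : Dirn dl v e) : Nonempty (Eig dl v e) := by
  set F : Slot e → κ → ℝ := fun l => Fcol e v l.1
  set M : Matrix (Slot e) (Slot e) ℝ := fun l l' => ∑ k, dl k * F l k * F l' k
  have hM : M.IsHermitian := by
    ext l l'
    simp only [M]
    exact Finset.sum_congr rfl fun k _ => by ring
  set U : Matrix (Slot e) (Slot e) ℝ := (hM.eigenvectorUnitary : Matrix (Slot e) (Slot e) ℝ)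
  have hU : Uᵀ * U = 1 := by
    have h := Unitary.coe_star_mul_self hM.eigenvectorUnitary
    rwa [star_eq_conjTranspose, conjTranspose_eq_transpose_of_trivial] at h
  have hD : Uᵀ * M * U = diagonal hM.eigenvalues := by
    have h := hM.conjStarAlgAut_star_eigenvectorUnitary
    simp only [Unitary.conjStarAlgAut_star_apply, star_eq_conjTranspose,
      conjTranspose_eq_transpose_of_trivial] at h
    rw [h]
    rfl
  have hF : ∀ a b : κ, ∑ k, Fcol e v a k * Fcol e v b k = if a = b then 1 else 0 := fun a b => by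
    simp only [Fcol, frame_inner, ite_mul, one_mul, zero_mul, Finset.sum_ite_eq', Finset.mem_univ,
      if_true]
  have hbil : ∀ (c : κ → ℝ) (i j : Slot e),
      ∑ k, c k * ((∑ l, U l i * F l k) * ∑ l, U l j * F l k) =
        ∑ l', (∑ l, U l i * ∑ k, c k * F l k * F l' k) * U l' j := fun c i j => by
    simp only [Finset.sum_mul, Finset.mul_sum]
    rw [Finset.sum_comm]
    refine Finset.sum_congr rfl fun l _ => ?_
    rw [Finset.sum_comm]
    exact Finset.sum_congr rfl fun l' _ => Finset.sum_congr rfl fun k _ => by ring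
  refine ⟨⟨U, fun i k => ∑ l, U l i * F l k, hU, fun z s k => ?_, fun i j => ?_, fun i => ?_,
    fun i j hij => ?_⟩⟩
  · set x : κ → ℝ := fun j => if h : j = e then s else (U *ᵥ z) ⟨j, h⟩
    rw [show x = fun a => ∑ b, x b * (if a = b then 1 else 0) from funext fun a => by simp,
      frame_sum]
    show ∑ b, x b * Fcol e v b k = _
    rw [Fintype.sum_eq_add_sum_subtype_ne _ e, Fcol_self hv]
    congr 1
    · simp [x]
    · have : ∀ b : Slot e, x b.1 * Fcol e v b.1 k = (U *ᵥ z) b * F b k := fun b => by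
        simp [x, F, b.2]
      simp only [this, mulVec, dotProduct, Finset.sum_mul, Finset.mul_sum]
      rw [Finset.sum_comm]
      exact Finset.sum_congr rfl fun i _ => Finset.sum_congr rfl fun l _ => by ring
  · have h1 := congrFun (congrFun hU i) j
    simp only [mul_apply, transpose_apply, one_apply] at h1
    have h2 := hbil (fun _ => 1) i j
    simp only [one_mul, F, hF, Subtype.coe_inj, mul_ite, mul_one, mul_zero, Finset.sum_ite_eq',
      Finset.mem_univ, if_true] at h2
    exact h2.trans h1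
  · rw [← Fcol_self hv]
    simp only [Finset.mul_sum]
    rw [Finset.sum_comm]
    refine Finset.sum_eq_zero fun l _ => ?_
    rw [show ∑ k, Fcol e v e k * (U l i * F l k) = U l i * ∑ k, Fcol e v e k * Fcol e v l.1 k by
      rw [Finset.mul_sum]; exact Finset.sum_congr rfl fun k _ => by simp only [F]; ring,
      hF, if_neg l.2.symm, mul_zero]
  · have h1 := congrFun (congrFun hD i) j
    simp only [mul_apply, transpose_apply, diagonal_apply, hij, if_false] at h1
    have h2 := hbil dl i j
    simp only [← mul_assoc] at h2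
    exact h2.trans h1

namespace Eig

variable (E : Eig dl v e)

/-- The slope of a basis vector. -/
noncomputable def lam (i : Slot e) : ℝ := ∑ k, dl k * E.G i k ^ 2

/-- The coupling of a basis vector to the spin. -/
noncomputable def w (i : Slot e) : ℝ := ∑ k, dl k * v k * E.G i k

/-- The rotation of all the fields. -/
noncomputable def rotF : Matrix (Fld e) (Fld e) ℝ := fromBlocks E.U 0 0 1

lemma rotF_orth : (E.rotF)ᵀ * E.rotF = 1 := by
  rw [rotF, fromBlocks_transpose, fromBlocks_multiply]
  simp [E.orthU, fromBlocks_one]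

lemma rotF_inl (z : Fld e → ℝ) (i : Slot e) :
    (E.rotF *ᵥ z) (Sum.inl i) = (E.U *ᵥ fun l => z (Sum.inl l)) i := by
  simp [rotF, mulVec, dotProduct, Fintype.sum_sum_type]

lemma rotF_inr (z : Fld e → ℝ) (i : Slot e) : (E.rotF *ᵥ z) (Sum.inr i) = z (Sum.inr i) := by
  simp [rotF, mulVec, dotProduct, Fintype.sum_sum_type, one_apply]

lemma spinQ_rot (z : Fld e → ℝ) (s : ℝ) :
    spinQ dl e v (E.rotF *ᵥ z) s = ((∑ k, dl k * v k ^ 2) * s ^ 2 +
      2 * s * (∑ i, E.w i * z (Sum.inl i)) + ∑ i, E.lam i * z (Sum.inl i) ^ 2) / 2 +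
        probeQ dl e z := by
  have hp : probeQ dl e (E.rotF *ᵥ z) = probeQ dl e z := by simp [probeQ, rotF_inr]
  have hf : fill e (E.rotF *ᵥ z) s =
      fun j => if h : j = e then s else (E.U *ᵥ fun l => z (Sum.inl l)) ⟨j, h⟩ := by
    funext j
    simp only [fill, rotF_inl]
  simp only [spinQ, hp, hf, E.frame_eq]
  congr 2
  set a : Slot e → ℝ := fun i => z (Sum.inl i)
  have e1 : ∀ k, dl k * (s * v k + ∑ i, a i * E.G i k) ^ 2 =
      s ^ 2 * (dl k * v k ^ 2) + 2 * s * ∑ i, a i * (dl k * v k * E.G i k) +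
        ∑ i, ∑ j, a i * a j * (dl k * E.G i k * E.G j k) := fun k => by
    have : ∑ i, ∑ j, a i * a j * (dl k * E.G i k * E.G j k) =
        dl k * ((∑ i, a i * E.G i k) * ∑ j, a j * E.G j k) := by
      rw [Finset.sum_mul_sum, Finset.mul_sum]
      refine Finset.sum_congr rfl fun i _ => ?_
      rw [Finset.mul_sum]
      exact Finset.sum_congr rfl fun j _ => by ring
    rw [this, show ∑ i, a i * (dl k * v k * E.G i k) = dl k * v k * ∑ i, a i * E.G i k by
      rw [Finset.mul_sum]; exact Finset.sum_congr rfl fun i _ => by ring]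
    ring
  show ∑ k, dl k * (s * v k + ∑ i, a i * E.G i k) ^ 2 = (∑ k, dl k * v k ^ 2) * s ^ 2 +
    2 * s * ∑ i, E.w i * a i + ∑ i, E.lam i * a i ^ 2
  simp only [e1, Finset.sum_add_distrib, ← Finset.mul_sum]
  have e2 : ∑ k, ∑ i, ∑ j, a i * a j * (dl k * E.G i k * E.G j k) = ∑ i, E.lam i * a i ^ 2 := by
    rw [Finset.sum_comm]
    refine Finset.sum_congr rfl fun i _ => ?_
    rw [Finset.sum_comm, Finset.sum_eq_single i (fun j _ hj => ?_) (by simp)]
    · rw [lam, Finset.sum_mul]
      exact Finset.sum_congr rfl fun k _ => by ring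
    · rw [← Finset.mul_sum, E.diag i j hj.symm, mul_zero]
  have e3 : ∑ k, ∑ i, a i * (dl k * v k * E.G i k) = ∑ i, E.w i * a i := by
    rw [Finset.sum_comm]
    refine Finset.sum_congr rfl fun i _ => ?_
    rw [w, Finset.sum_mul]
    exact Finset.sum_congr rfl fun k _ => by ring
  rw [e2, e3, mul_comm (s ^ 2)]

lemma lam_nonneg (hv : Dirn dl v e) (i : Slot e) : 0 ≤ E.lam i :=
  Finset.sum_nonneg fun k _ => mul_nonneg (hv.slope k) (sq_nonneg _)

lemma mul_lam_le {D b : ℝ} (hb : ∀ k, D * dl k ≤ b) (i : Slot e) : D * E.lam i ≤ b := by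
  have h1 : ∑ k, E.G i k ^ 2 = 1 := by simpa [pow_two] using E.orth i i
  calc D * E.lam i = ∑ k, D * dl k * E.G i k ^ 2 := by
        rw [lam, Finset.mul_sum]; exact Finset.sum_congr rfl fun k _ => by ring
    _ ≤ ∑ k, b * E.G i k ^ 2 :=
        Finset.sum_le_sum fun k _ => mul_le_mul_of_nonneg_right (hb k) (sq_nonneg _)
    _ = b := by rw [← Finset.mul_sum, h1, mul_one]

lemma abs_w_le (hv : Dirn dl v e) (i : Slot e) : |E.w i| ≤ ∑ k, dl k := by
  have h1 : ∀ k, |E.G i k| ≤ 1 := fun k => by
    have h : ∑ k, E.G i k ^ 2 = 1 := by simpa [pow_two] using E.orth i i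
    rw [← sq_le_one_iff_abs_le_one, ← h]
    exact Finset.single_le_sum (f := fun k => E.G i k ^ 2) (fun k _ => sq_nonneg _) (Finset.mem_univ k)
  have h2 : ∀ k, |v k| ≤ 1 := fun k => by
    rw [← sq_le_one_iff_abs_le_one, ← hv.unit]
    exact Finset.single_le_sum (f := fun k => v k ^ 2) (fun k _ => sq_nonneg _) (Finset.mem_univ k)
  refine (Finset.abs_sum_le_sum_abs _ _).trans (Finset.sum_le_sum fun k _ => ?_)
  rw [abs_mul, abs_mul, abs_of_nonneg (hv.slope k), mul_assoc]
  refine mul_le_of_le_one_right (hv.slope k) ?_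
  exact mul_le_one₀ (h2 k) (abs_nonneg _) (h1 k)

/-- The Schur complement of the spin. -/
noncomputable def schur (D : ℝ) : ℝ :=
  1 - D * (∑ k, dl k * v k ^ 2) - ∑ i, (D * E.w i) ^ 2 / (1 - D * E.lam i)

/-- The determinant and the resolvent entry of the spin. -/
theorem schur_spec (hv : Dirn dl v e) {D : ℝ} (hd : ∀ k, D * dl k < 1) :
    gfun dl v D * E.schur D = 1 ∧ 0 < gfun dl v D ∧
      ∏ k, (1 - D * dl k) = (∏ i, (1 - D * E.lam i)) * E.schur D := by
  have hk : ∀ k, 0 < 1 - D * dl k := fun k => by linarith [hd k]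
  have hl : ∀ i, 0 < 1 - D * E.lam i := fun i => by
    have h1 : ∑ k, E.G i k ^ 2 = 1 := by simpa [pow_two] using E.orth i i
    have h2 : 1 - D * E.lam i = ∑ k, (1 - D * dl k) * E.G i k ^ 2 := by
      rw [show (1 : ℝ) - D * E.lam i = ∑ k, E.G i k ^ 2 - D * E.lam i by rw [h1], lam, Finset.mul_sum,
        ← Finset.sum_sub_distrib]
      exact Finset.sum_congr rfl fun k _ => by ring
    rw [h2]
    obtain ⟨k, hk'⟩ : ∃ k, E.G i k ≠ 0 := by
      by_contra hc
      push Not at hc
      simp [hc] at h1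
    exact Finset.sum_pos' (fun k _ => mul_nonneg (hk k).le (sq_nonneg _))
      ⟨k, Finset.mem_univ k, mul_pos (hk k) (by positivity)⟩
  let V : Slot e ⊕ Unit ≃ κ :=
    { toFun := Sum.elim Subtype.val fun _ => e
      invFun := fun j => if h : j = e then Sum.inr () else Sum.inl ⟨j, h⟩
      left_inv := by rintro (⟨j, hj⟩ | ⟨⟩) <;> simp [*]
      right_inv := fun j => by by_cases h : j = e <;> simp [h] }
  set Q : Matrix (Slot e ⊕ Unit) (Slot e ⊕ Unit) ℝ :=
    Matrix.of fun a b => Sum.elim (fun i => E.G i (V a)) (fun _ => v (V a)) b with hQ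
  have hsum : ∀ f : κ → ℝ, ∑ a, f (V a) = ∑ k, f k := fun f => Equiv.sum_comp V f
  have hQQ : Qᵀ * Q = 1 := by
    ext a b
    simp only [mul_apply, transpose_apply, hQ, of_apply]
    rcases a with i | ⟨⟩ <;> rcases b with j | ⟨⟩ <;>
      simp only [Sum.elim_inl, Sum.elim_inr]
    · rw [hsum fun k => E.G i k * E.G j k, E.orth]
      simp [one_apply]
    · rw [hsum fun k => E.G i k * v k]
      simpa [one_apply, mul_comm] using E.perp i
    · rw [hsum fun k => v k * E.G j k]
      simpa [one_apply] using E.perp j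
    · rw [hsum fun k => v k * v k]
      simpa [one_apply, pow_two] using hv.unit
  set c0 := ∑ k, dl k * v k ^ 2 with hc0
  set μ : Slot e → ℝ := fun i => D * E.w i / (1 - D * E.lam i)
  have hS : E.schur D = 1 - D * c0 - ∑ i, D * E.w i * μ i := by
    simp only [schur, μ, ← hc0]
    congr 1
    exact Finset.sum_congr rfl fun i _ => by ring
  have hA1 : ∀ i j, ∑ k, (1 - D * dl k) * E.G i k * E.G j k =
      if i = j then 1 - D * E.lam i else 0 := fun i j => by
    simp only [sub_mul, one_mul, mul_assoc D, Finset.sum_sub_distrib, ← Finset.mul_sum, E.orth]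
    split_ifs with h
    · subst h
      rw [lam]
      congr 2
      exact Finset.sum_congr rfl fun k _ => by ring
    · rw [E.diag i j h, mul_zero, sub_zero]
  have hA2 : ∀ i, ∑ k, (1 - D * dl k) * v k * E.G i k = -(D * E.w i) := fun i => by
    simp only [sub_mul, one_mul, mul_assoc D, Finset.sum_sub_distrib, ← Finset.mul_sum, E.perp, w,
      zero_sub]
  have hA3 : ∑ k, (1 - D * dl k) * v k * v k = 1 - D * c0 := by
    rw [hc0, Finset.mul_sum]
    simp only [sub_mul, one_mul, Finset.sum_sub_distrib, ← pow_two, hv.unit]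
    congr 1
    exact Finset.sum_congr rfl fun k _ => by ring
  -- the resolvent
  set x : κ → ℝ := fun k => (1 - D * dl k) * (v k + ∑ i, μ i * E.G i k) - E.schur D * v k with hx
  have hx0 : x = 0 := by
    have hb : Qᵀ *ᵥ (fun a => x (V a)) = 0 := by
      funext a
      simp only [mulVec, dotProduct, transpose_apply, hQ, of_apply, Pi.zero_apply]
      rcases a with j | ⟨⟩ <;> simp only [Sum.elim_inl, Sum.elim_inr]
      · rw [hsum fun k => E.G j k * x k]
        have : ∑ k, E.G j k * x k = ∑ k, (1 - D * dl k) * v k * E.G j k +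
            ∑ i, μ i * ∑ k, (1 - D * dl k) * E.G i k * E.G j k -
              E.schur D * ∑ k, v k * E.G j k := by
          simp only [hx, mul_sub, mul_add, Finset.sum_sub_distrib, Finset.sum_add_distrib,
            Finset.mul_sum]
          rw [Finset.sum_comm (f := fun i k => μ i * _)]
          congr 1
          · congr 1
            · exact Finset.sum_congr rfl fun k _ => by ring
            · exact Finset.sum_congr rfl fun k _ => Finset.sum_congr rfl fun i _ => by ring
          · exact Finset.sum_congr rfl fun k _ => by ring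
        simp only [this, hA2, hA1, E.perp, mul_ite, mul_zero, Finset.sum_ite_eq', Finset.mem_univ,
          if_true, μ, sub_zero]
        rw [div_mul_cancel₀ _ (hl j).ne']
        ring
      · rw [hsum fun k => v k * x k]
        have : ∑ k, v k * x k = ∑ k, (1 - D * dl k) * v k * v k +
            ∑ i, μ i * ∑ k, (1 - D * dl k) * v k * E.G i k - E.schur D * ∑ k, v k ^ 2 := by
          simp only [hx, mul_sub, mul_add, Finset.sum_sub_distrib, Finset.sum_add_distrib,
            Finset.mul_sum]
          rw [Finset.sum_comm (f := fun i k => μ i * _)]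
          congr 1
          · congr 1
            · exact Finset.sum_congr rfl fun k _ => by ring
            · exact Finset.sum_congr rfl fun k _ => Finset.sum_congr rfl fun i _ => by ring
          · exact Finset.sum_congr rfl fun k _ => by ring
        simp only [this, hA2, hA3, hv.unit, hS, mul_neg, Finset.sum_neg_distrib]
        rw [Finset.sum_congr rfl fun i _ => mul_comm (μ i) (D * E.w i)]
        ring
    have h2 := congrArg (fun y => Q *ᵥ y) hb
    simp only [mulVec_mulVec, mul_eq_one_comm.1 hQQ, one_mulVec, mulVec_zero] at h2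
    funext k
    simpa using congrFun h2 (V.symm k)
  have hgS : gfun dl v D * E.schur D = 1 := by
    have e : ∀ k, v k ^ 2 / (1 - D * dl k) * E.schur D = v k ^ 2 + ∑ i, μ i * (v k * E.G i k) :=
      fun k => by
      have h := congrFun hx0 k
      simp only [hx, Pi.zero_apply, sub_eq_zero] at h
      have := (hk k).ne'
      rw [show ∑ i, μ i * (v k * E.G i k) = v k * ∑ i, μ i * E.G i k by
        rw [Finset.mul_sum]; exact Finset.sum_congr rfl fun i _ => by ring]
      field_simp
      linear_combination -v k * h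
    simp only [gfun, Finset.sum_mul, e, Finset.sum_add_distrib, hv.unit]
    rw [Finset.sum_comm]
    simp [← Finset.mul_sum, E.perp]
  refine ⟨hgS, Finset.sum_pos' (fun k _ => div_nonneg (sq_nonneg _) (hk k).le) ?_, ?_⟩
  · obtain ⟨k, hk'⟩ : ∃ k, v k ≠ 0 := by
      by_contra hc
      push Not at hc
      simpa [hc] using hv.unit
    exact ⟨k, Finset.mem_univ k, div_pos (by positivity) (hk k)⟩
  -- the determinant
  set A : Matrix (Slot e) (Slot e) ℝ := diagonal fun i => 1 - D * E.lam i
  let iA : Invertible A := ⟨diagonal fun i => (1 - D * E.lam i)⁻¹,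
    by simp [A, diagonal_mul_diagonal, (hl _).ne'], by simp [A, diagonal_mul_diagonal, (hl _).ne']⟩
  set B : Matrix (Slot e) Unit ℝ := Matrix.of fun i _ => -(D * E.w i) with hB
  have hblock : Qᵀ * diagonal (fun a => 1 - D * dl (V a)) * Q =
      fromBlocks A B Bᵀ (Matrix.of fun _ _ => 1 - D * c0) := by
    ext a b
    rw [mul_apply]
    simp only [mul_diagonal, transpose_apply, hQ, of_apply]
    rcases a with i | ⟨⟩ <;> rcases b with j | ⟨⟩ <;> simp only [Sum.elim_inl, Sum.elim_inr,
      fromBlocks_apply₁₁, fromBlocks_apply₁₂, fromBlocks_apply₂₁, fromBlocks_apply₂₂]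
    · rw [hsum fun k => E.G i k * (1 - D * dl k) * E.G j k]
      rw [show A i j = if i = j then 1 - D * E.lam i else 0 from rfl, ← hA1]
      exact Finset.sum_congr rfl fun k _ => by ring
    · rw [hsum fun k => E.G i k * (1 - D * dl k) * v k]
      simp only [hB, of_apply, ← hA2]
      exact Finset.sum_congr rfl fun k _ => by ring
    · rw [hsum fun k => v k * (1 - D * dl k) * E.G j k]
      simp only [hB, of_apply, transpose_apply, ← hA2]
      exact Finset.sum_congr rfl fun k _ => by ring
    · rw [hsum fun k => v k * (1 - D * dl k) * v k, ← hA3]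
      exact Finset.sum_congr rfl fun k _ => by ring
  have hdet := congrArg Matrix.det hblock
  rw [det_fromBlocks₁₁, det_mul, det_mul, det_diagonal, mul_right_comm, ← det_mul, hQQ, det_one,
    one_mul, det_unique (_ - Bᵀ * _ * B)] at hdet
  rw [← Equiv.prod_comp V, hdet]
  simp only [A, det_diagonal]
  congr 1
  show (1 - D * c0) - (Bᵀ * diagonal (fun i => (1 - D * E.lam i)⁻¹) * B) default default = _
  simp [mul_apply, B, hS, μ, div_eq_mul_inv, diagonal_apply]
  exact Finset.sum_congr rfl fun i _ => by ring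

lemma kfun_eq (hv : Dirn dl v e) {D : ℝ} (hD : D ≠ 0) (hd : ∀ k, D * dl k < 1) :
    kfun dl v D = (∑ k, dl k * v k ^ 2) + D * ∑ i, E.w i ^ 2 / (1 - D * E.lam i) := by
  obtain ⟨h, -, -⟩ := E.schur_spec hv hd
  rw [kfun, inv_eq_of_mul_eq_one_right h, schur, div_eq_iff hD, add_mul, Finset.mul_sum, Finset.sum_mul]
  simp only [mul_pow]
  have : ∀ i, D ^ 2 * E.w i ^ 2 / (1 - D * E.lam i) = D * (E.w i ^ 2 / (1 - D * E.lam i)) * D :=
    fun i => by ring
  simp only [this]
  simp only [mul_assoc, ← Finset.mul_sum, ← Finset.sum_mul]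
  ring_nf
  simp only [mul_assoc, ← Finset.mul_sum]
  ring

lemma log_det (hv : Dirn dl v e) {D : ℝ} (hd : ∀ k, D * dl k < 1) :
    ∑ i, Real.log (1 - D * E.lam i) =
      (∑ k, Real.log (1 - D * dl k)) + Real.log (gfun dl v D) := by
  obtain ⟨h, hg, hp⟩ := E.schur_spec hv hd
  have hk : ∀ k, 0 < 1 - D * dl k := fun k => by linarith [hd k]
  have e : ∏ i, (1 - D * E.lam i) = (∏ k, (1 - D * dl k)) * gfun dl v D := by
    rw [hp, mul_assoc, mul_comm (E.schur D), h, mul_one]
  have hpos : 0 < ∏ i, (1 - D * E.lam i) := by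
    rw [e]; exact mul_pos (Finset.prod_pos fun k _ => hk k) hg
  rw [← Real.log_prod fun i hi => Finset.prod_ne_zero_iff.1 hpos.ne' i hi, e,
    Real.log_mul (Finset.prod_pos fun k _ => hk k).ne' hg.ne', Real.log_prod fun k _ => (hk k).ne']

omit [DecidableEq κ] in
lemma eventually_edge {α : Type} [Fintype α] {a : α → ℝ} {D : ℝ} (h : ∀ i, D * a i < 1) :
    ∀ᶠ x in 𝓝 D, ∀ i, x * a i < 1 :=
  eventually_all.2 fun i =>
    ((continuous_id.mul continuous_const).tendsto D).eventually (eventually_lt_nhds (h i))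

omit [DecidableEq κ] in
lemma hasDerivAt_gfun {D : ℝ} (hd : ∀ k, D * dl k < 1) :
    HasDerivAt (gfun dl v) (gder dl v D) D := by
  have : ∀ k ∈ (Finset.univ : Finset κ),
      HasDerivAt (fun x => v k ^ 2 / (1 - x * dl k)) (v k ^ 2 * dl k / (1 - D * dl k) ^ 2) D :=
    fun k _ => ((hasDerivAt_const D (v k ^ 2)).fun_div
      (((hasDerivAt_id D).mul_const (dl k)).const_sub 1) (by simp only [id]; linarith [hd k])).congr_deriv
      (by simp)
  exact HasDerivAt.fun_sum this

lemma kder_eq (hv : Dirn dl v e) {D : ℝ} (hD : D ≠ 0) (hd : ∀ k, D * dl k < 1) :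
    kder dl v D = ∑ i, E.w i ^ 2 / (1 - D * E.lam i) ^ 2 := by
  obtain ⟨-, hg, -⟩ := E.schur_spec hv hd
  have h1 : HasDerivAt (kfun dl v) (kder dl v D) D := by
    refine ((((hasDerivAt_gfun hd).fun_inv hg.ne').const_sub 1).fun_div (hasDerivAt_id D) hD).congr_deriv ?_
    simp only [kder, id]
    field_simp
  have hl : ∀ i, 1 - D * E.lam i ≠ 0 := fun i => by
    obtain ⟨-, hg', hp⟩ := E.schur_spec hv hd
    have hh : (∏ k, (1 - D * dl k)) ≠ 0 :=
      (Finset.prod_pos fun k _ => by linarith [hd k]).ne'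
    rw [hp] at hh
    exact Finset.prod_ne_zero_iff.1 (left_ne_zero_of_mul hh) i (Finset.mem_univ i)
  have h2 : HasDerivAt (fun x => (∑ k, dl k * v k ^ 2) + ∑ i, x * E.w i ^ 2 / (1 - x * E.lam i))
      (∑ i, E.w i ^ 2 / (1 - D * E.lam i) ^ 2) D :=
    (HasDerivAt.fun_sum (u := Finset.univ) fun i _ => (((hasDerivAt_id D).mul_const (E.w i ^ 2)).fun_div
      (((hasDerivAt_id D).mul_const (E.lam i)).const_sub 1) (hl i)).congr_deriv
      (show _ = E.w i ^ 2 / (1 - D * E.lam i) ^ 2 by simp only [id]; ring)).const_add _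
  refine h1.unique (h2.congr_of_eventuallyEq ?_)
  filter_upwards [eventually_edge hd, eventually_ne_nhds hD] with x hx hx0
  rw [E.kfun_eq hv hx0 hx, Finset.mul_sum]
  congr 1
  exact Finset.sum_congr rfl fun i _ => by ring

lemma trace_det (hv : Dirn dl v e) {D : ℝ} (hd : ∀ k, D * dl k < 1) :
    ∑ i, E.lam i / (1 - D * E.lam i) =
      (∑ k, dl k / (1 - D * dl k)) - gder dl v D / gfun dl v D := by
  obtain ⟨-, hg, hp⟩ := E.schur_spec hv hd
  have hl : ∀ i, 1 - D * E.lam i ≠ 0 := fun i => by
    have hh : (∏ k, (1 - D * dl k)) ≠ 0 :=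
      (Finset.prod_pos fun k _ => by linarith [hd k]).ne'
    rw [hp] at hh
    exact Finset.prod_ne_zero_iff.1 (left_ne_zero_of_mul hh) i (Finset.mem_univ i)
  have h1 : HasDerivAt (fun x => ∑ i, Real.log (1 - x * E.lam i))
      (∑ i, -(E.lam i / (1 - D * E.lam i))) D :=
    HasDerivAt.fun_sum fun i _ =>
      ((((hasDerivAt_id D).mul_const (E.lam i)).const_sub 1).log (hl i)).congr_deriv
        (show _ = -(E.lam i / (1 - D * E.lam i)) by simp only [id]; ring)
  have h2 : HasDerivAt (fun x => (∑ k, Real.log (1 - x * dl k)) + Real.log (gfun dl v x))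
      ((∑ k, -(dl k / (1 - D * dl k))) + gder dl v D / gfun dl v D) D :=
    (HasDerivAt.fun_sum fun k _ =>
      ((((hasDerivAt_id D).mul_const (dl k)).const_sub 1).log (by simp only [id]; linarith [hd k])).congr_deriv
        (show _ = -(dl k / (1 - D * dl k)) by simp only [id]; ring)).add ((hasDerivAt_gfun hd).log hg.ne')
  have := h1.unique (h2.congr_of_eventuallyEq (by
    filter_upwards [eventually_edge hd] with x hx
    exact E.log_det hv hx))
  simp only [Finset.sum_neg_distrib] at this
  linarith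

end Eig

end Vale.Agent.P166F.Low
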