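import Vale.Agent.P166F.Low.Defs
import Vale.Agent.P166W.Rotate

/-!
P166: a standard Gaussian vector under exponential tilts by diagonal quadratic and linear forms, and
the laws of its linear images.
-/

namespace Vale.Agent.P166F.Low

open MeasureTheory ProbabilityTheory
open Vale.Agent.P166W (gauss)
open scoped ENNReal

variable {ι : Type} [Fintype ι]

/-- The scale of a standard Gaussian variable tilted by `exp (α z ^ 2 / 2)`. -/
noncomputable def tsig (α : ℝ) : ℝ := (Real.sqrt (1 - α))⁻¹

/-- The mass of a standard Gaussian variable under the tilt `exp (α z ^ 2 / 2 + β z)`. -/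
noncomputable def tmass (α β : ℝ) : ℝ := Real.exp (β ^ 2 / (2 * (1 - α)) - Real.log (1 - α) / 2)

lemma tilt_one {α : ℝ} (hα : α < 1) (β : ℝ) :
    (gaussianReal 0 1).withDensity (fun z => ENNReal.ofReal (Real.exp (α * z ^ 2 / 2 + β * z))) =
      ENNReal.ofReal (tmass α β) •
        (gaussianReal 0 1).map (fun z => β / (1 - α) + tsig α * z) := by
  have hp : 0 < 1 - α := by linarith
  have hmap : (gaussianReal 0 1).map (fun z => β / (1 - α) + tsig α * z) =
      gaussianReal (β / (1 - α)) (Real.toNNReal (1 - α)⁻¹) := by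
    rw [show (fun z => β / (1 - α) + tsig α * z) = (β / (1 - α) + ·) ∘ (tsig α * ·) from rfl,
      ← Measure.map_map (by fun_prop) (by fun_prop), gaussianReal_map_const_mul,
      gaussianReal_map_const_add, mul_zero, zero_add, mul_one]
    congr 1
    apply NNReal.eq
    rw [Real.coe_toNNReal _ (inv_nonneg.2 hp.le)]
    simp [tsig, inv_pow, Real.sq_sqrt hp.le]
  have hv : Real.toNNReal (1 - α)⁻¹ ≠ 0 := by simp [hα]
  rw [hmap, gaussianReal_of_var_ne_zero 0 one_ne_zero, gaussianReal_of_var_ne_zero _ hv,
    ← withDensity_mul _ (measurable_gaussianPDF 0 1) (by fun_prop),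
    ← withDensity_smul _ (measurable_gaussianPDF _ _)]
  congr 1
  funext z
  simp only [Pi.mul_apply, Pi.smul_apply, smul_eq_mul, gaussianPDF, gaussianPDFReal, sub_zero,
    NNReal.coe_one, mul_one, Real.coe_toNNReal _ (inv_nonneg.2 hp.le)]
  rw [← ENNReal.ofReal_mul (by positivity), ← ENNReal.ofReal_mul (by unfold tmass; positivity)]
  congr 1
  have hs : (Real.sqrt (2 * Real.pi * (1 - α)⁻¹))⁻¹ =
      (Real.sqrt (2 * Real.pi))⁻¹ * Real.exp (Real.log (1 - α) / 2) := by
    rw [Real.sqrt_mul (by positivity), Real.sqrt_inv, mul_inv, inv_inv, Real.exp_half,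
      Real.exp_log hp]
  rw [hs, tmass, mul_assoc, ← Real.exp_add, mul_assoc, ← Real.exp_add, mul_left_comm, ← Real.exp_add]
  congr 2
  field_simp
  ring

lemma lintegral_gauss_prod {f : ι → ℝ → ℝ≥0∞} (hf : ∀ i, Measurable (f i)) :
    ∫⁻ x, ∏ i, f i (x i) ∂gauss ι = ∏ i, ∫⁻ z, f i z ∂gaussianReal 0 1 := by
  refine (lintegral_prod_eq_prod_lintegral_of_indepFun Finset.univ (fun i (x : ι → ℝ) => f i (x i))
    (iIndepFun_pi fun i => (hf i).aemeasurable) fun i => (hf i).comp (measurable_pi_apply i)).trans ?_
  exact Finset.prod_congr rfl fun i _ =>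
    (measurePreserving_eval (fun _ : ι => gaussianReal 0 1) i).lintegral_comp (hf i)

/-- Tilting a Gaussian vector by a diagonal quadratic and a linear form shifts and rescales it. -/
theorem gauss_tilt_vec {α : ι → ℝ} (hα : ∀ i, α i < 1) (β : ι → ℝ) {G : (ι → ℝ) → ℝ}
    (hG : Measurable G) :
    ∫ z, Real.exp (∑ i, (α i * z i ^ 2 / 2 + β i * z i)) * G z ∂gauss ι =
        (∏ i, tmass (α i) (β i)) * ∫ u, G (fun i => β i / (1 - α i) + tsig (α i) * u i) ∂gauss ι ∧
      (Integrable (fun u => G (fun i => β i / (1 - α i) + tsig (α i) * u i)) (gauss ι) →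
        Integrable (fun z => Real.exp (∑ i, (α i * z i ^ 2 / 2 + β i * z i)) * G z) (gauss ι)) := by
  set d : (ι → ℝ) → ℝ := fun z => Real.exp (∑ i, (α i * z i ^ 2 / 2 + β i * z i))
  set T : (ι → ℝ) → ι → ℝ := fun u i => β i / (1 - α i) + tsig (α i) * u i
  have hd : Measurable d := by fun_prop
  have hT : Measurable T := by fun_prop
  have hC : ∀ i, 0 ≤ tmass (α i) (β i) := fun i => (Real.exp_pos _).le
  have key : (gauss ι).withDensity (fun z => ENNReal.ofReal (d z)) =
      ENNReal.ofReal (∏ i, tmass (α i) (β i)) • (gauss ι).map T := by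
    classical
    have e0 : (gauss ι).map T =
        Measure.pi fun i => (gaussianReal 0 1).map fun u => β i / (1 - α i) + tsig (α i) * u := by
      have : ∀ i, IsProbabilityMeasure
          ((gaussianReal 0 1).map fun u => β i / (1 - α i) + tsig (α i) * u) :=
        fun i => Measure.isProbabilityMeasure_map (by fun_prop)
      exact Measure.pi_map_pi (f := fun i (u : ℝ) => β i / (1 - α i) + tsig (α i) * u)
        fun i => (by fun_prop : Measurable fun u : ℝ => β i / (1 - α i) + tsig (α i) * u).aemeasurable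
    have h2 : ∀ s : ι → Set ℝ, (∀ i, MeasurableSet (s i)) →
        (gauss ι).withDensity (fun z => ENNReal.ofReal (d z)) (Set.univ.pi s) =
          ∏ i, (gaussianReal 0 1).withDensity
            (fun z => ENNReal.ofReal (Real.exp (α i * z ^ 2 / 2 + β i * z))) (s i) := fun s hs => by
      have e : ∀ x : ι → ℝ, (Set.univ.pi s).indicator (fun z => ENNReal.ofReal (d z)) x =
          ∏ i, (s i).indicator
            (fun z => ENNReal.ofReal (Real.exp (α i * z ^ 2 / 2 + β i * z))) (x i) := fun x => by
        simp only [Set.indicator_apply, Set.mem_univ_pi, Finset.prod_ite_zero, Finset.mem_univ,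
          forall_const, d, Real.exp_sum, ENNReal.ofReal_prod_of_nonneg fun i _ => (Real.exp_pos _).le]
      rw [withDensity_apply _ (MeasurableSet.univ_pi hs), ← lintegral_indicator (MeasurableSet.univ_pi hs)]
      simp only [e]
      rw [lintegral_gauss_prod fun i => Measurable.indicator (by fun_prop) (hs i)]
      refine Finset.prod_congr rfl fun i _ => ?_
      rw [withDensity_apply _ (hs i), ← lintegral_indicator (hs i)]
    have h0 : ENNReal.ofReal (∏ i, tmass (α i) (β i)) ≠ 0 := by
      simp [Finset.prod_pos fun i _ => Real.exp_pos _, tmass]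
    rw [e0]
    have e1 := Measure.pi_eq
      (μ := fun i => (gaussianReal 0 1).map fun u => β i / (1 - α i) + tsig (α i) * u)
      (μ' := (ENNReal.ofReal (∏ i, tmass (α i) (β i)))⁻¹ •
        (gauss ι).withDensity fun z => ENNReal.ofReal (d z)) fun s hs => by
      rw [Measure.smul_apply, h2 s hs]
      simp only [tilt_one (hα _), Measure.smul_apply, smul_eq_mul]
      rw [Finset.prod_mul_distrib, ← ENNReal.ofReal_prod_of_nonneg fun i _ => hC i, ← mul_assoc,
        ENNReal.inv_mul_cancel h0 ENNReal.ofReal_ne_top, one_mul]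
    rw [e1, smul_smul, ENNReal.mul_inv_cancel h0 ENNReal.ofReal_ne_top, one_smul]
  have hdd : ∀ z, (ENNReal.ofReal (d z)).toReal = d z := fun z =>
    ENNReal.toReal_ofReal (Real.exp_pos _).le
  have hlt : ∀ᵐ z ∂gauss ι, ENNReal.ofReal (d z) < ⊤ :=
    Filter.Eventually.of_forall fun z => ENNReal.ofReal_lt_top
  constructor
  · have h := integral_withDensity_eq_integral_toReal_smul (μ := gauss ι) hd.ennreal_ofReal hlt G
    simp only [hdd, smul_eq_mul] at h
    rw [← h, key, integral_smul_measure, integral_map hT.aemeasurable hG.aestronglyMeasurable,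
      ENNReal.toReal_ofReal (Finset.prod_nonneg fun i _ => hC i), smul_eq_mul]
  · intro hi
    have h1 : Integrable G ((gauss ι).map T) :=
      (integrable_map_measure hG.aestronglyMeasurable hT.aemeasurable).2 hi
    have h := (h1.smul_measure (c := ENNReal.ofReal (∏ i, tmass (α i) (β i))) ENNReal.ofReal_ne_top)
    rw [← key, integrable_withDensity_iff_integrable_smul' hd.ennreal_ofReal hlt] at h
    simpa only [hdd, smul_eq_mul] using h

/-- A linear form of a Gaussian vector. -/
theorem gauss_sum (a : ι → ℝ) :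
    (gauss ι).map (fun z => ∑ i, a i * z i) =
      (gaussianReal 0 1).map (fun z => Real.sqrt (∑ i, a i ^ 2) * z) := by
  have hm : Measurable fun z : ι → ℝ => ∑ i, a i * z i := by fun_prop
  have := Measure.isProbabilityMeasure_map (μ := gauss ι) hm.aemeasurable
  rw [gaussianReal_map_const_mul]
  refine Measure.ext_of_charFun ?_
  funext t
  rw [charFun_apply_real, integral_map hm.aemeasurable (by fun_prop), charFun_gaussianReal]
  have e : ∀ z : ι → ℝ, Complex.exp ((t : ℂ) * (↑(∑ i, a i * z i) : ℂ) * Complex.I) =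
      ∏ i, Complex.exp (((t * a i : ℝ) : ℂ) * (z i : ℂ) * Complex.I) := fun z => by
    rw [← Complex.exp_sum]
    push_cast
    rw [Finset.mul_sum, Finset.sum_mul]
    simp only [mul_assoc]
  simp only [e]
  rw [gauss, integral_fintype_prod_eq_prod (fun i (x : ℝ) =>
    Complex.exp (((t * a i : ℝ) : ℂ) * (x : ℂ) * Complex.I))]
  simp only [← charFun_apply_real, charFun_gaussianReal]
  rw [← Complex.exp_sum]
  congr 1
  simp only [mul_zero, Complex.ofReal_zero, zero_mul, zero_sub, NNReal.coe_mk, mul_one, NNReal.coe_one,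
    Complex.ofReal_one, one_mul, Real.sq_sqrt (Finset.sum_nonneg fun i _ => sq_nonneg (a i))]
  push_cast
  rw [Finset.sum_mul, Finset.sum_div, ← Finset.sum_neg_distrib]
  exact Finset.sum_congr rfl fun i _ => by ring

lemma integral_gauss_sum (a : ι → ℝ) {H : ℝ → ℝ} (hH : Measurable H) :
    ∫ z, H (∑ i, a i * z i) ∂gauss ι = ∫ u, H (Real.sqrt (∑ i, a i ^ 2) * u) ∂gaussianReal 0 1 := by
  have hm : Measurable fun z : ι → ℝ => ∑ i, a i * z i := by fun_prop
  rw [← integral_map hm.aemeasurable hH.aestronglyMeasurable,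
    gauss_sum, integral_map (by fun_prop) hH.aestronglyMeasurable]

lemma integrable_gauss_sum (a : ι → ℝ) {H : ℝ → ℝ} (hH : Measurable H)
    (hi : Integrable (fun u => H (Real.sqrt (∑ i, a i ^ 2) * u)) (gaussianReal 0 1)) :
    Integrable (fun z => H (∑ i, a i * z i)) (gauss ι) := by
  have h : Integrable H ((gauss ι).map fun z => ∑ i, a i * z i) := by
    rw [gauss_sum]
    exact (integrable_map_measure hH.aestronglyMeasurable (by fun_prop)).2 hi
  have hm : Measurable fun z : ι → ℝ => ∑ i, a i * z i := by fun_prop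
  exact (integrable_map_measure hH.aestronglyMeasurable hm.aemeasurable).1 h

/-- A coordinate is independent of a form not involving it. -/
theorem gauss_coord [DecidableEq ι] (c : ι → ℝ) {l : ι} (hl : c l = 0) {f g : ℝ → ℝ}
    (hf : Measurable f) (hg : Measurable g) :
    ∫ u, f (∑ i, c i * u i) * g (u l) ∂gauss ι =
      (∫ u, f (∑ i, c i * u i) ∂gauss ι) * ∫ z, g z ∂gaussianReal 0 1 := by
  set X : ι → ℝ → ℝ := fun i x => if i = l then x else c i * x
  have hX : ∀ i, Measurable (X i) := fun i => by
    by_cases h : i = l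
    · simp only [X, h, if_true]; exact measurable_id
    · simp only [X, h, if_false]; exact measurable_const_mul _
  have hmX : ∀ i, Measurable fun u : ι → ℝ => X i (u i) := fun i => (hX i).comp (measurable_pi_apply i)
  have hind := (iIndepFun_pi (μ := fun _ : ι => gaussianReal 0 1) (X := X)
    fun i => (hX i).aemeasurable).indepFun_finsetSum_of_notMem hmX (Finset.notMem_erase l Finset.univ)
  have e1 : (∑ i ∈ Finset.univ.erase l, fun u : ι → ℝ => X i (u i)) = fun u => ∑ i, c i * u i := by
    funext u
    rw [Finset.sum_apply, ← Finset.add_sum_erase _ _ (Finset.mem_univ l), hl, zero_mul, zero_add]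
    exact Finset.sum_congr rfl fun i hi => by simp [X, (Finset.mem_erase.1 hi).1]
  have e2 : (fun u : ι → ℝ => X l (u l)) = fun u => u l := by simp [X]
  rw [e1, e2] at hind
  have h := hind.integral_fun_comp_mul_comp (by fun_prop : Measurable fun u : ι → ℝ => ∑ i, c i * u i).aemeasurable
    (measurable_pi_apply l).aemeasurable hf.aestronglyMeasurable hg.aestronglyMeasurable
  refine h.trans ?_
  congr 1
  have hp := measurePreserving_eval (fun _ : ι => gaussianReal 0 1) l
  exact (integral_map hp.aemeasurable (by rw [hp.map_eq]; exact hg.aestronglyMeasurable)).symm.trans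
    (by rw [hp.map_eq])

lemma integral_eval_gauss (l : ι) {g : ℝ → ℝ} (hg : Measurable g) :
    ∫ u, g (u l) ∂gauss ι = ∫ z, g z ∂gaussianReal 0 1 := by
  classical
  simpa [gauss] using gauss_coord (fun _ => 0) (l := l) rfl (f := fun _ => 1) measurable_const hg

end Vale.Agent.P166F.Low
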