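import Vale.Agent.P166F.Low.Closed.Step

/-!
P166: nested averages of an exponential quadratic form times a function of one linear form, level by
level, with bounds uniform in the levels.
-/

namespace Vale.Agent.P166F.Low

open MeasureTheory ProbabilityTheory Filter Vale.Agent.P157.Low
open Vale.Agent.P166W (gauss)
open scoped Topology

variable {ι : Type} [Fintype ι] {r : ℕ}

/-- Total variances compatible with the levels. -/
structure Dg (lam : ι → ℝ) (m d : Fin (r + 1) → ℝ) (D : ℕ → ℝ) : Prop where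
  step : ∀ k ≤ r, StepOK lam (m (idx r k)) (d (idx r k)) (D k) (D (k + 1))

/-- The sum over the levels already averaged after `k` steps. -/
noncomputable def lsum (f : Fin (r + 1) → ℝ) (k : ℕ) : ℝ :=
  ∑ i : Fin (r + 1), if r < (i : ℕ) + k then f i else 0

/-- The scalar increments of the linear form. -/
noncomputable def dsc (lam w : ι → ℝ) (d : Fin (r + 1) → ℝ) (D : ℕ → ℝ) (j : Fin (r + 1)) : ℝ :=
  svar lam w (d j) (D (r - (j : ℕ))) (D (r - (j : ℕ) + 1))

/-- The constants of the levels. -/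
noncomputable def csc (lam : ι → ℝ) (m d : Fin (r + 1) → ℝ) (D : ℕ → ℝ) (j : Fin (r + 1)) : ℝ :=
  cinc lam (m j) (d j) (D (r - (j : ℕ))) (D (r - (j : ℕ) + 1))

/-- The increments of variance of a coordinate. -/
noncomputable def vsc (lam : ι → ℝ) (d : Fin (r + 1) → ℝ) (D : ℕ → ℝ) (l : ι) (j : Fin (r + 1)) : ℝ :=
  vinc lam (d j) (D (r - (j : ℕ))) (D (r - (j : ℕ) + 1)) l

lemma lsum_zero (f : Fin (r + 1) → ℝ) : lsum f 0 = 0 :=
  Finset.sum_eq_zero fun i _ => by rw [if_neg]; omega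

lemma lsum_succ (f : Fin (r + 1) → ℝ) {k : ℕ} (hk : k ≤ r) :
    lsum f (k + 1) = lsum f k + f (idx r k) := by
  simp only [lsum]
  rw [← Finset.sum_ite_eq' Finset.univ (idx r k) f |>.trans (if_pos (Finset.mem_univ _)),
    ← Finset.sum_add_distrib]
  refine Finset.sum_congr rfl fun i _ => ?_
  have hi := i.isLt
  by_cases h : i = idx r k
  · have hv : (i : ℕ) = r - k := by rw [h]; rfl
    rw [if_pos (by omega), if_neg (by omega), if_pos h, zero_add]
  · have hv : (i : ℕ) ≠ r - k := fun e => h (Fin.ext e)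
    rw [if_neg h, add_zero]
    exact if_congr (by omega) rfl rfl

lemma lsum_top (f : Fin (r + 1) → ℝ) : lsum f (r + 1) = ∑ i, f i :=
  Finset.sum_congr rfl fun i _ => if_pos (by omega)

lemma lsum_nonneg {f : Fin (r + 1) → ℝ} (hf : ∀ i, 0 ≤ f i) (k : ℕ) : 0 ≤ lsum f k :=
  Finset.sum_nonneg fun i _ => by split <;> simp [hf i]

lemma lsum_le {f : Fin (r + 1) → ℝ} (hf : ∀ i, 0 ≤ f i) (k : ℕ) : lsum f k ≤ ∑ i, f i :=
  Finset.sum_le_sum fun i _ => by split <;> simp [hf i]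

lemma idx_back {k : ℕ} (hk : k ≤ r) : r - ((idx r k : Fin (r + 1)) : ℕ) = k := by
  simp only [idx]; omega

lemma potUp_succ (m d : Fin (r + 1) → ℝ) (u : ℝ → ℝ) {k : ℕ} (hk : k ≤ r) :
    potUp m d u (k + 1) = potStep (m (idx r k)) (d (idx r k)) (potUp m d u k) := by
  simp only [potUp, hk, dite_true]
  rfl

lemma insUp_succ' (m d : Fin (r + 1) → ℝ) (u θ : ℝ → ℝ) {k : ℕ} (hk : k ≤ r) :
    insUp m d u θ (k + 1) =
      insStep (m (idx r k)) (d (idx r k)) (potUp m d u k) (insUp m d u θ k) := by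
  simp only [insUp, hk, dite_true]
  rfl

lemma measurable_heat {g : ℝ → ℝ} (hg : Measurable g) (s : ℝ) : Measurable (heat g s) :=
  ((hg.comp (by fun_prop : Measurable fun p : ℝ × ℝ => p.1 + Real.sqrt s * p.2)).stronglyMeasurable
    |>.integral_prod_right' (ν := gaussianReal 0 1)).measurable

lemma measurable_insStep {U η : ℝ → ℝ} (hU : Measurable U) (hη : Measurable η) (m τ : ℝ) :
    Measurable (insStep m τ U η) :=
  (measurable_heat (by fun_prop : Measurable fun x => Real.exp (m * U x) * η x) τ).div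
    (measurable_heat (by fun_prop : Measurable fun x => Real.exp (m * U x)) τ)

variable {lam w : ι → ℝ} {m d : Fin (r + 1) → ℝ} {D : ℕ → ℝ} {A : ℝ} {φ : ℝ → ℝ}

/-- The potentials keep their shape. -/
theorem potV_ridge (h : Dg lam m d D) (hφ : Lip1 φ) : ∀ k ≤ r + 1,
    potV m d (ridge lam w A (D 0) φ) k =
        ridge lam w (A + lsum (csc lam m d D) k) (D k) (potUp m (dsc lam w d D) φ k) ∧
      Lip1 (potUp m (dsc lam w d D) φ k) := by
  intro k
  induction k with
  | zero => exact fun _ => ⟨by rw [lsum_zero, add_zero]; rfl, hφ⟩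
  | succ k ih =>
    intro hk
    have hk' : k ≤ r := by omega
    obtain ⟨e, hl⟩ := ih (by omega)
    refine ⟨?_, ?_⟩
    · rw [potV_succ _ _ _ hk', e, lstep_ridge (h.step k hk') hl, potUp_succ _ _ _ hk', lsum_succ _ hk']
      simp only [dsc, csc, idx_back hk', add_assoc]
    · rw [potUp_succ _ _ _ hk']
      exact lip1_potStep hl (h.step k hk').mn _

lemma intg_potV (h : Dg lam m d D) (hφ : Lip1 φ) : ∀ k ≤ r,
    Intg (m (idx r k)) (d (idx r k)) (potV m d (ridge lam w A (D 0) φ) k) := fun k hk => by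
  obtain ⟨e, hl⟩ := potV_ridge h hφ k (by omega) (A := A) (w := w)
  rw [e]
  exact intg_ridge (h.step k hk) hl

/-- Insertions of the linear form follow the scalar recursion. -/
theorem insV_ridge (h : Dg lam m d D) (hφ : Lip1 φ) {η : ℝ → ℝ} (hη : Measurable η) : ∀ k ≤ r + 1,
    insV m d (ridge lam w A (D 0) φ) (fun x => η (∑ i, wD lam w (D 0) i * x i)) k =
        (fun y => insUp m (dsc lam w d D) φ η k (∑ i, wD lam w (D k) i * y i)) ∧
      Measurable (insUp m (dsc lam w d D) φ η k) := by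
  intro k
  induction k with
  | zero => exact fun _ => ⟨rfl, hη⟩
  | succ k ih =>
    intro hk
    have hk' : k ≤ r := by omega
    obtain ⟨e, hm⟩ := ih (by omega)
    obtain ⟨e2, hl⟩ := potV_ridge h hφ k (by omega) (A := A) (w := w)
    rw [insV_succ _ _ _ _ hk', e, e2, istep_ridge (h.step k hk') hl hm, insUp_succ' _ _ _ _ hk']
    simp only [dsc, idx_back hk']
    exact ⟨trivial, measurable_insStep hl.continuous.measurable hm _ _⟩

/-- Exponential growth. -/
def EG (g : ℝ → ℝ) : Prop :=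
  Measurable g ∧ ∃ B a, 0 ≤ a ∧ ∀ v, |g v| ≤ B * Real.exp (a * |v|)

lemma EG.integrable {g : ℝ → ℝ} (hg : EG g) (a b : ℝ) :
    Integrable (fun z => g (a + b * z)) (gaussianReal 0 1) := by
  obtain ⟨hm, B, c, hc, hB⟩ := hg
  refine ((integrable_exp_abs (c * |b|)).const_mul (|B| * Real.exp (c * |a|))).mono'
    (hm.comp (by fun_prop)).aestronglyMeasurable (Eventually.of_forall fun z => ?_)
  rw [Real.norm_eq_abs, mul_assoc, ← Real.exp_add]
  refine (hB _).trans (mul_le_mul (le_abs_self B) (Real.exp_le_exp.2 ?_) (Real.exp_pos _).le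
    (abs_nonneg B))
  have := mul_le_mul_of_nonneg_left (abs_add_le a (b * z)) hc
  rw [abs_mul] at this
  linarith

lemma EG.heat {g : ℝ → ℝ} (hg : EG g) (s : ℝ) : EG (Vale.Agent.P157.Low.heat g s) := by
  have hm := hg.1
  obtain ⟨B, c, hc, hB⟩ := hg.2
  refine ⟨measurable_heat hm s,
    |B| * ∫ z, Real.exp (c * Real.sqrt s * |z|) ∂gaussianReal 0 1, c, hc, fun v => ?_⟩
  rw [show |B| * (∫ z, Real.exp (c * Real.sqrt s * |z|) ∂gaussianReal 0 1) * Real.exp (c * |v|) =
    ∫ z, |B| * Real.exp (c * |v|) * Real.exp (c * Real.sqrt s * |z|) ∂gaussianReal 0 1 by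
      rw [integral_const_mul]; ring]
  refine abs_integral_le_integral_abs.trans (integral_mono (hg.integrable v (Real.sqrt s)).abs
    ((integrable_exp_abs _).const_mul _) fun z => ?_)
  rw [mul_assoc, ← Real.exp_add]
  refine (hB _).trans (mul_le_mul (le_abs_self B) (Real.exp_le_exp.2 ?_) (Real.exp_pos _).le
    (abs_nonneg B))
  have := mul_le_mul_of_nonneg_left (abs_add_le v (Real.sqrt s * z)) hc
  rw [abs_mul, abs_of_nonneg (Real.sqrt_nonneg s)] at this
  linarith

lemma EG.mul {g g' : ℝ → ℝ} (hg : EG g) (hg' : EG g') : EG fun v => g v * g' v := by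
  obtain ⟨hm, B, c, hc, hB⟩ := hg
  obtain ⟨hm', B', c', hc', hB'⟩ := hg'
  refine ⟨hm.mul hm', B * B', c + c', add_nonneg hc hc', fun v => ?_⟩
  rw [abs_mul, add_mul, Real.exp_add]
  have := mul_le_mul (hB v) (hB' v) (abs_nonneg _) ((abs_nonneg _).trans (hB v))
  linarith

/-- Heat flows compose. -/
lemma heat_heat {g : ℝ → ℝ} (hg : EG g) {s s' : ℝ} (hs : 0 ≤ s) (hs' : 0 ≤ s') (a : ℝ) :
    heat (heat g s) s' a = heat g (s + s') a := by
  have h := gauss_merge (H := fun v => g (a + v)) (hg.1.comp (measurable_const_add a))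
    (a := Real.sqrt s') (b := Real.sqrt s) (c := Real.sqrt (s + s'))
    (by rw [Real.sq_sqrt hs, Real.sq_sqrt hs', Real.sq_sqrt (add_nonneg hs hs'), add_comm])
    (hg.integrable a _)
  simp only [heat, add_assoc]
  exact h.2

/-- Insertions of a coordinate orthogonal to the linear form are Gaussian averages. -/
theorem insV_coord (h : Dg lam m d D) (hφ : Lip1 φ) {g : ℝ → ℝ} (hg : EG g) {l : ι} (hl : w l = 0) :
    ∀ k ≤ r + 1, insV m d (ridge lam w A (D 0) φ) (fun x => g (x l / (1 - D 0 * lam l))) k =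
        (fun y => heat g (lsum (vsc lam d D l) k) (y l / (1 - D k * lam l))) ∧
      0 ≤ lsum (vsc lam d D l) k := by
  intro k
  induction k with
  | zero =>
    refine fun _ => ⟨?_, (lsum_zero _).ge⟩
    funext y
    rw [lsum_zero, heat_zero]
    rfl
  | succ k ih =>
    intro hk
    have hk' : k ≤ r := by omega
    obtain ⟨e, hn⟩ := ih (by omega)
    obtain ⟨e2, hl2⟩ := potV_ridge h hφ k (by omega) (A := A) (w := w)
    have hv := (h.step k hk').vinc_nonneg l
    refine ⟨?_, ?_⟩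
    · rw [insV_succ _ _ _ _ hk', e, e2, istep_coord (h.step k hk') hl2 (measurable_heat hg.1 _) hl,
        lsum_succ _ hk']
      funext y
      simp only [vsc, idx_back hk']
      exact heat_heat hg hn hv _
    · rw [lsum_succ _ hk']
      simp only [vsc, idx_back hk']
      exact add_nonneg hn hv

/-! ### The levels up to `j` -/

/-- The first levels, up to `j`. -/
def upTo (j : Fin (r + 1)) (f : Fin (r + 1) → ℝ) (i : Fin ((j : ℕ) + 1)) : ℝ := f ⟨i, by omega⟩

lemma idx_upTo (j : Fin (r + 1)) (f : Fin (r + 1) → ℝ) {k : ℕ} (hk : k ≤ j) :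
    upTo j f (idx j k) = f (idx r (r - j + k)) := by
  simp only [upTo, idx]
  congr 1
  ext
  simp only
  omega

lemma potV_upTo (m d : Fin (r + 1) → ℝ) (u : (ι → ℝ) → ℝ) (j : Fin (r + 1)) : ∀ k ≤ (j : ℕ) + 1,
    potV (upTo j m) (upTo j d) (potV m d u (r - j)) k = potV m d u (r - j + k) := by
  intro k
  induction k with
  | zero => exact fun _ => rfl
  | succ k ih =>
    intro hk
    rw [potV_succ _ _ _ (by omega : k ≤ (j : ℕ)), ih (by omega), ← Nat.add_assoc,
      potV_succ _ _ _ (by omega : r - (j : ℕ) + k ≤ r), idx_upTo j m (by omega),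
      idx_upTo j d (by omega)]

omit [Fintype ι] in
lemma Dg.upTo (h : Dg lam m d D) (j : Fin (r + 1)) :
    Dg lam (upTo j m) (upTo j d) fun k => D (r - j + k) := ⟨fun k hk => by
  rw [idx_upTo j m hk, idx_upTo j d hk]
  exact h.step _ (by omega)⟩

lemma dsc_upTo (j : Fin (r + 1)) :
    dsc lam w (upTo j d) (fun k => D (r - j + k)) = upTo j (dsc lam w d D) := by
  funext i
  have hi := i.isLt
  simp only [dsc, upTo]
  congr 2 <;> omega

omit [Fintype ι] in
lemma vsc_upTo (l : ι) (j : Fin (r + 1)) :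
    vsc lam (upTo j d) (fun k => D (r - j + k)) l = upTo j (vsc lam d D l) := by
  funext i
  have hi := i.isLt
  simp only [vsc, upTo]
  congr 2 <;> omega

lemma sum_upTo (j : Fin (r + 1)) (f : Fin (r + 1) → ℝ) :
    ∑ i, upTo j f i = ∑ i, if i ≤ j then f i else 0 := by
  rw [← Finset.sum_filter]
  refine Finset.sum_bij (fun i _ => (⟨i, by omega⟩ : Fin (r + 1)))
    (fun i _ => Finset.mem_filter.2 ⟨Finset.mem_univ _, by
      have := i.isLt; rw [Fin.le_def]; simp only; omega⟩)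
    (fun a _ b _ e => Fin.ext (by simpa [Fin.ext_iff] using e))
    (fun b hb => ⟨⟨b, by have := Fin.le_def.1 (Finset.mem_filter.1 hb).2; omega⟩, Finset.mem_univ _, rfl⟩)
    (fun i _ => rfl)

/-! ### Values -/

variable {rest : ℝ} {Φ : (ι → ℝ) → ℝ}

theorem valV_ridge (h : Dg lam m d D) (hφ : Lip1 φ) (hu : leafU Φ rest = ridge lam w A (D 0) φ) :
    valV m d rest Φ = A + lsum (csc lam m d D) (r + 1) + potUp m (dsc lam w d D) φ (r + 1) 0 := by
  rw [valV, hu, (potV_ridge h hφ (r + 1) le_rfl).1]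
  simp [ridge, quad]

theorem twoV_ridge (h : Dg lam m d D) (hφ : Lip1 φ) (hu : leafU Φ rest = ridge lam w A (D 0) φ)
    {θ θ' : (ι → ℝ) → ℝ} {η η' : ℝ → ℝ} (hη : Measurable η) (hη' : Measurable η')
    (hi : leafI Φ θ rest = fun x => η (∑ i, wD lam w (D 0) i * x i))
    (hi' : leafI Φ θ' rest = fun x => η' (∑ i, wD lam w (D 0) i * x i)) (j : Fin (r + 1)) :
    twoV m d rest Φ θ θ' j = pairRoot m (dsc lam w d D) φ η η' j := by
  have hk0 : r - (j : ℕ) ≤ r + 1 := by omega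
  obtain ⟨e, hl⟩ := potV_ridge h hφ _ hk0 (A := A) (w := w)
  obtain ⟨e1, hm1⟩ := insV_ridge h hφ hη _ hk0 (A := A)
  obtain ⟨e2, hm2⟩ := insV_ridge h hφ hη' _ hk0 (A := A)
  simp only [twoV, pairV, hu, hi, hi', e]
  rw [e1, e2]
  have := (insV_ridge (w := w) (h.upTo j) hl (η := fun a => insUp m (dsc lam w d D) φ η (r - j) a *
    insUp m (dsc lam w d D) φ η' (r - j) a) (hm1.mul hm2) ((j : ℕ) + 1) le_rfl
    (A := A + lsum (csc lam m d D) (r - j))).1
  simp only [Nat.add_zero, dsc_upTo] at this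
  exact (congrFun this 0).trans (by simp only [Pi.zero_apply, mul_zero, Finset.sum_const_zero]; rfl)

theorem twoV_coord (h : Dg lam m d D) (hφ : Lip1 φ) (hu : leafU Φ rest = ridge lam w A (D 0) φ)
    {θ θ' : (ι → ℝ) → ℝ} {g g' : ℝ → ℝ} (hg : EG g) (hg' : EG g') {l : ι} (hl : w l = 0)
    (hi : leafI Φ θ rest = fun x => g (x l / (1 - D 0 * lam l)))
    (hi' : leafI Φ θ' rest = fun x => g' (x l / (1 - D 0 * lam l))) (j : Fin (r + 1)) :
    twoV m d rest Φ θ θ' j = heat (fun v => heat g (lsum (vsc lam d D l) (r - j)) v *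
        heat g' (lsum (vsc lam d D l) (r - j)) v)
      (∑ i, if i ≤ j then vsc lam d D l i else 0) 0 := by
  have hk0 : r - (j : ℕ) ≤ r + 1 := by omega
  obtain ⟨e, hlp⟩ := potV_ridge h hφ _ hk0 (A := A) (w := w)
  obtain ⟨e1, -⟩ := insV_coord h hφ hg hl _ hk0 (A := A)
  obtain ⟨e2, -⟩ := insV_coord h hφ hg' hl _ hk0 (A := A)
  simp only [twoV, pairV, hu, hi, hi', e]
  rw [e1, e2]
  have := (insV_coord (w := w) (h.upTo j) hlp
    ((hg.heat (lsum (vsc lam d D l) (r - j))).mul (hg'.heat (lsum (vsc lam d D l) (r - j)))) hl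
    ((j : ℕ) + 1) le_rfl (A := A + lsum (csc lam m d D) (r - j))).1
  simp only [Nat.add_zero] at this
  refine (congrFun this 0).trans ?_
  simp only [lsum_top, vsc_upTo, sum_upTo, Pi.zero_apply, zero_div]

/-- The leaf keeps the shape. -/
theorem leafU_ridge (hs : StepOK lam 1 rest 0 rest) (hφ : Lip1 φ)
    (hΦ : ∀ x, Φ x = Real.exp (ridge lam w A 0 φ x)) :
    leafU Φ rest = ridge lam w (A + cinc lam 1 rest 0 rest) rest
      (potStep 1 (svar lam w rest 0 rest) φ) := by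
  rw [leafU_eq (fun x => by rw [hΦ]; exact Real.exp_pos _), show (fun x => Real.log (Φ x)) =
    ridge lam w A 0 φ from funext fun x => by rw [hΦ, Real.log_exp]]
  exact lstep_ridge hs hφ

/-! ### The cost of lowering the weight -/

/-- An exponential majorant. -/
noncomputable def esum (lam : ι → ℝ) (C D : ℝ) (B : ι → ℝ) (x : ι → ℝ) : ℝ :=
  C * (1 + ∑ i, (Real.exp (x i / (1 - D * lam i) + B i) + Real.exp (-(x i / (1 - D * lam i)) + B i)))

lemma istep_esum {m t D D' : ℝ} (h : StepOK lam m t D D') (hφ : Lip1 φ) {C : ℝ} (hC : 0 ≤ C)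
    (B : ι → ℝ) (y : ι → ℝ) :
    istep m t (ridge lam w A D φ) (esum lam C D B) y ≤
        esum lam C D' (fun i => B i + (1 / 2 + m * |w i|) * vinc lam t D D' i) y ∧
      Integrable (fun z => Real.exp (m * ridge lam w A D φ (shf t y z)) *
        esum lam C D B (shf t y z)) (gauss ι) := by
  set E := fun x => Real.exp (m * ridge lam w A D φ x)
  have hE : Integrable (fun z => E (shf t y z)) (gauss ι) := (intg_ridge h hφ y).2
  have hp : 0 < heatV E t y := integral_exp_pos (intg_ridge (A := A) (w := w) h hφ y).2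
  have hs : ∀ i, ∀ s : ℝ, |s| ≤ 1 →
      heatV (fun x => E x * Real.exp (s * (x i / (1 - D * lam i)))) t y ≤
        Real.exp (s * (y i / (1 - D' * lam i)) + (1 / 2 + m * |w i|) * vinc lam t D D' i) *
          heatV E t y := fun i s hs =>
    (div_le_iff₀ hp).1 ((istep_exp (A := A) (w := w) h hφ i hs y).1)
  have hi : ∀ i, ∀ s : ℝ, |s| ≤ 1 →
      Integrable (fun z => E (shf t y z) * Real.exp (s * (shf t y z i / (1 - D * lam i)))) (gauss ι) :=
    fun i s hs => (istep_exp (A := A) (w := w) h hφ i hs y).2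
  have e : ∀ x, E x * esum lam C D B x = C * E x + ∑ i,
      (C * Real.exp (B i) * (E x * Real.exp (1 * (x i / (1 - D * lam i)))) +
        C * Real.exp (B i) * (E x * Real.exp ((-1) * (x i / (1 - D * lam i))))) := fun x => by
    simp only [esum, mul_add, mul_one, Finset.mul_sum, Real.exp_add, one_mul, neg_one_mul]
    congr 1
    · ring
    · exact Finset.sum_congr rfl fun i _ => by ring
  have h1 : |(1 : ℝ)| ≤ 1 := abs_one.le
  have h2 : |(-1 : ℝ)| ≤ 1 := by simp
  have it : ∀ i, Integrable (fun z =>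
      C * Real.exp (B i) * (E (shf t y z) * Real.exp (1 * (shf t y z i / (1 - D * lam i)))) +
        C * Real.exp (B i) * (E (shf t y z) * Real.exp ((-1) * (shf t y z i / (1 - D * lam i)))))
      (gauss ι) := fun i => ((hi i 1 h1).const_mul _).add ((hi i (-1) h2).const_mul _)
  have its := (hE.const_mul C).add (integrable_finsetSum Finset.univ fun i _ => it i)
  refine ⟨?_, its.congr (Eventually.of_forall fun z => (e (shf t y z)).symm)⟩
  show heatV (fun x => E x * esum lam C D B x) t y / heatV E t y ≤ _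
  rw [div_le_iff₀ hp, heatV_eq]
  simp only [e]
  rw [integral_add (hE.const_mul C) (integrable_finsetSum Finset.univ fun i _ => it i),
    integral_finsetSum _ fun i _ => it i, integral_const_mul, ← heatV_eq E]
  simp only [esum, mul_add, mul_one, add_mul, Finset.mul_sum, Finset.sum_mul]
  refine add_le_add le_rfl (Finset.sum_le_sum fun i _ => ?_)
  rw [integral_add ((hi i 1 h1).const_mul _) ((hi i (-1) h2).const_mul _), integral_const_mul,
    integral_const_mul]
  refine add_le_add ?_ ?_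
  · refine (mul_le_mul_of_nonneg_left (hs i 1 h1) (by positivity)).trans_eq ?_
    rw [one_mul]
    simp only [Real.exp_add, add_mul]
    ring
  · refine (mul_le_mul_of_nonneg_left (hs i (-1) h2) (by positivity)).trans_eq ?_
    rw [neg_one_mul]
    simp only [Real.exp_add, add_mul]
    ring

/-- The cost of lowering a ridge weight, uniformly in the levels. -/
theorem valV_gap_ridge (h : Dg lam m d D) (hs : StepOK lam 1 (D 0) 0 (D 0)) (hφ : Lip1 φ)
    {Φ' : (ι → ℝ) → ℝ} (hΦ' : ∀ x, Φ' x = Real.exp (ridge lam w A 0 φ x)) (hΦm : Measurable Φ)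
    (hΦ : ∀ x, 1 ≤ Φ x ∧ Φ x ≤ Φ' x) {C : ℝ} (hC : 0 ≤ C)
    (hdiff : ∀ x, Real.log (Φ' x) - Real.log (Φ x) ≤ esum lam C 0 (fun _ => 0) x) :
    valV m d (D 0) Φ ≤ valV m d (D 0) Φ' ∧
      valV m d (D 0) Φ' - valV m d (D 0) Φ ≤ esum lam C (D (r + 1)) (fun i =>
        (1 / 2 + 1 * |w i|) * vinc lam (D 0) 0 (D 0) i +
          lsum (fun j => (1 / 2 + m j * |w i|) * vsc lam d D i j) (r + 1)) 0 := by
  have hp : ∀ x, 0 < Φ x := fun x => zero_lt_one.trans_le (hΦ x).1
  have hp' : ∀ x, 0 < Φ' x := fun x => (hp x).trans_le (hΦ x).2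
  set X : (ι → ℝ) → ℝ := fun x => Real.log (Φ x)
  have hX : Measurable X := hΦm.log
  have hXX : ∀ x, 0 ≤ X x ∧ X x ≤ ridge lam w A 0 φ x := fun x => ⟨Real.log_nonneg (hΦ x).1, by
    have := Real.log_le_log (hp x) (hΦ x).2
    rwa [hΦ', Real.log_exp] at this⟩
  have hd' : ∀ x, ridge lam w A 0 φ x - X x ≤ esum lam C 0 (fun _ => 0) x := fun x => by
    have := hdiff x
    rwa [hΦ', Real.log_exp] at this
  set u' := leafU Φ' (D 0)
  set B0 : ι → ℝ := fun i => (1 / 2 + 1 * |w i|) * vinc lam (D 0) 0 (D 0) i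
  have hu' : u' = ridge lam w (A + cinc lam 1 (D 0) 0 (D 0)) (D 0)
      (potStep 1 (svar lam w (D 0) 0 (D 0)) φ) := leafU_ridge hs hφ hΦ'
  have hu0 : u' = lstep 1 (D 0) (ridge lam w A 0 φ) := by
    rw [hu']; exact (lstep_ridge hs hφ).symm
  have hI := intg_ridge (A := A) (w := w) hs hφ
  have hu : ∀ x, 0 ≤ leafU Φ (D 0) x ∧ leafU Φ (D 0) x ≤ u' x ∧
      u' x - leafU Φ (D 0) x ≤ esum lam C (D 0) B0 x := fun x => by
    rw [leafU_eq hp, hu0]
    obtain ⟨-, hmem⟩ := lstep_mem zero_le_one hX hXX hI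
    refine ⟨(hmem x).1, (hmem x).2, ?_⟩
    refine (lstep_gap zero_le_one hX hXX hI hd'
      (fun y => (istep_esum hs hφ hC _ y).2) x).trans ((istep_esum hs hφ hC _ x).1.trans_eq ?_)
    simp only [B0, zero_add]
  have hl1 : Lip1 (potStep 1 (svar lam w (D 0) 0 (D 0)) φ) := lip1_potStep hφ zero_le_one _
  set η : ℕ → (ι → ℝ) → ℝ := fun k => esum lam C (D k)
    (fun i => B0 i + lsum (fun j => (1 / 2 + m j * |w i|) * vsc lam d D i j) k)
  have hpot := potV_gap (m := m) (d := d) (u := leafU Φ (D 0)) (u' := u')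
    (fun j => by
      have := (h.step (r - j) (by omega)).mn
      rwa [show idx r (r - (j : ℕ)) = j from Fin.ext (by simp only [idx]; omega)] at this)
    (by rw [leafU_eq hp]; exact measurable_lstep hX 1 _) (fun x => ⟨(hu x).1, (hu x).2.1⟩)
    (by rw [hu']; exact intg_potV h hl1) η
    (fun x => (hu x).2.2.trans_eq (by simp [η, lsum_zero]))
    (fun k hk y => by
      obtain ⟨e, hl⟩ := potV_ridge (A := A + cinc lam 1 (D 0) 0 (D 0)) (w := w) h hl1 k (by omega)
      rw [hu', e]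
      exact (istep_esum (h.step k hk) hl hC _ y).2)
    (fun k hk y => by
      obtain ⟨e, hl⟩ := potV_ridge (A := A + cinc lam 1 (D 0) 0 (D 0)) (w := w) h hl1 k (by omega)
      rw [hu', e]
      refine (istep_esum (h.step k hk) hl hC _ y).1.trans_eq ?_
      simp only [η, lsum_succ _ hk, vsc, idx_back hk, add_assoc])
    (r + 1) le_rfl 0
  exact ⟨hpot.2.1, hpot.2.2⟩

/-- Dominated limits of pairs of insertions. -/
theorem twoV_conv (h : Dg lam m d D) (hs : StepOK lam 1 (D 0) 0 (D 0)) (hφ : Lip1 φ)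
    {Φ : ℝ → (ι → ℝ) → ℝ} {Φ' : (ι → ℝ) → ℝ} (hΦ' : ∀ x, Φ' x = Real.exp (ridge lam w A 0 φ x))
    {θ : ℝ → (ι → ℝ) → ℝ} {θ' : (ι → ℝ) → ℝ} {B : ℝ}
    (hev : ∀ᶠ L in atTop, Measurable (Φ L) ∧ Measurable (θ L) ∧
      ∀ x, 1 ≤ Φ L x ∧ Φ L x ≤ Φ' x ∧ |θ L x| ≤ B)
    (hlim : ∀ x, Tendsto (fun L => Φ L x) atTop (𝓝 (Φ' x)) ∧
      Tendsto (fun L => θ L x) atTop (𝓝 (θ' x))) (j : Fin (r + 1)) :
    Tendsto (fun L => twoV m d (D 0) (Φ L) (θ L) (θ L) j) atTop
      (𝓝 (twoV m d (D 0) Φ' θ' θ' j)) := by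
  have hm : ∀ i, 0 ≤ m i := fun i => by
    have := (h.step (r - i) (by omega)).mn
    rwa [show idx r (r - (i : ℕ)) = i from Fin.ext (by simp only [idx]; omega)] at this
  have hp' : ∀ x, 0 < Φ' x := fun x => by rw [hΦ']; exact Real.exp_pos _
  have eX : (fun x => Real.log (Φ' x)) = ridge lam w A 0 φ :=
    funext fun x => by rw [hΦ', Real.log_exp]
  have c0 : Conv (fun L x => Real.log (Φ L x)) (fun x => Real.log (Φ' x)) θ θ' B :=
    ⟨hev.mono fun L hL => ⟨hL.1.log, hL.2.1, fun x => ⟨Real.log_nonneg (hL.2.2 x).1,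
      Real.log_le_log (zero_lt_one.trans_le (hL.2.2 x).1) (hL.2.2 x).2.1, (hL.2.2 x).2.2⟩⟩,
    fun x => ⟨(hlim x).1.log (hp' x).ne', (hlim x).2⟩⟩
  have c1 := conv_step (m := 1) (t := D 0) zero_le_one c0 (by rw [eX]; exact intg_ridge hs hφ)
  have hu' : lstep 1 (D 0) (fun x => Real.log (Φ' x)) = ridge lam w (A + cinc lam 1 (D 0) 0 (D 0))
      (D 0) (potStep 1 (svar lam w (D 0) 0 (D 0)) φ) := by rw [eX]; exact lstep_ridge hs hφ
  have hl1 : Lip1 (potStep 1 (svar lam w (D 0) 0 (D 0)) φ) := lip1_potStep hφ zero_le_one _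
  have hk0 : r - (j : ℕ) ≤ r + 1 := by omega
  obtain ⟨hev2, hlim2⟩ := potV_conv hm c1 (by rw [hu']; exact intg_potV h hl1) _ hk0
  obtain ⟨e, hl⟩ := potV_ridge (A := A + cinc lam 1 (D 0) 0 (D 0)) (w := w) h hl1 _ hk0
  set u : ℝ → (ι → ℝ) → ℝ := fun L => lstep 1 (D 0) fun x => Real.log (Φ L x)
  set η : ℝ → (ι → ℝ) → ℝ := fun L => insV m d (u L) (istep 1 (D 0) (fun x => Real.log (Φ L x)) (θ L))
    (r - j)
  set η' := insV m d (lstep 1 (D 0) fun x => Real.log (Φ' x))
    (istep 1 (D 0) (fun x => Real.log (Φ' x)) θ') (r - j)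
  have c2 : Conv (fun L => potV m d (u L) (r - j))
      (potV m d (lstep 1 (D 0) fun x => Real.log (Φ' x)) (r - j))
      (fun L y => η L y * η L y) (fun y => η' y * η' y) (B * B) :=
    ⟨hev2.mono fun L hL => ⟨hL.1, hL.2.1.mul hL.2.1, fun x => ⟨(hL.2.2 x).1, (hL.2.2 x).2.1, by
      rw [abs_mul]
      exact mul_self_le_mul_self (abs_nonneg _) (hL.2.2 x).2.2⟩⟩,
    fun x => ⟨(hlim2 x).1, (hlim2 x).2.mul (hlim2 x).2⟩⟩
  have c3 := potV_conv (m := upTo j m) (d := upTo j d) (fun i => hm _) c2 (by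
    rw [hu', e]
    have := intg_potV (A := A + cinc lam 1 (D 0) 0 (D 0) + lsum (csc lam m d D) (r - j)) (w := w)
      (h.upTo j) hl
    simpa only [Nat.add_zero] using this) ((j : ℕ) + 1) le_rfl
  have e1 : twoV m d (D 0) Φ' θ' θ' j = insV (upTo j m) (upTo j d)
      (potV m d (lstep 1 (D 0) fun x => Real.log (Φ' x)) (r - j)) (fun y => η' y * η' y)
      ((j : ℕ) + 1) 0 := by
    simp only [twoV, pairV, leafU_eq hp', leafI_eq hp']
    rfl
  rw [e1]
  refine Tendsto.congr' ?_ (c3.2 0).2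
  filter_upwards [hev] with L hL
  have hpL : ∀ x, 0 < Φ L x := fun x => zero_lt_one.trans_le (hL.2.2 x).1
  simp only [twoV, pairV, leafU_eq hpL, leafI_eq hpL]
  rfl

/-- Dominated limits of single insertions. -/
theorem oneV_conv (h : Dg lam m d D) (hs : StepOK lam 1 (D 0) 0 (D 0)) (hφ : Lip1 φ)
    {Φ : ℝ → (ι → ℝ) → ℝ} {Φ' : (ι → ℝ) → ℝ} (hΦ' : ∀ x, Φ' x = Real.exp (ridge lam w A 0 φ x))
    {θ : ℝ → (ι → ℝ) → ℝ} {θ' : (ι → ℝ) → ℝ} {B : ℝ}
    (hev : ∀ᶠ L in atTop, Measurable (Φ L) ∧ Measurable (θ L) ∧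
      ∀ x, 1 ≤ Φ L x ∧ Φ L x ≤ Φ' x ∧ |θ L x| ≤ B)
    (hlim : ∀ x, Tendsto (fun L => Φ L x) atTop (𝓝 (Φ' x)) ∧
      Tendsto (fun L => θ L x) atTop (𝓝 (θ' x))) :
    Tendsto (fun L => oneV m d (D 0) (Φ L) (θ L)) atTop (𝓝 (oneV m d (D 0) Φ' θ')) := by
  have hm : ∀ i, 0 ≤ m i := fun i => by
    have := (h.step (r - i) (by omega)).mn
    rwa [show idx r (r - (i : ℕ)) = i from Fin.ext (by simp only [idx]; omega)] at this
  have hp' : ∀ x, 0 < Φ' x := fun x => by rw [hΦ']; exact Real.exp_pos _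
  have eX : (fun x => Real.log (Φ' x)) = ridge lam w A 0 φ :=
    funext fun x => by rw [hΦ', Real.log_exp]
  have c0 : Conv (fun L x => Real.log (Φ L x)) (fun x => Real.log (Φ' x)) θ θ' B :=
    ⟨hev.mono fun L hL => ⟨hL.1.log, hL.2.1, fun x => ⟨Real.log_nonneg (hL.2.2 x).1,
      Real.log_le_log (zero_lt_one.trans_le (hL.2.2 x).1) (hL.2.2 x).2.1, (hL.2.2 x).2.2⟩⟩,
    fun x => ⟨(hlim x).1.log (hp' x).ne', (hlim x).2⟩⟩
  have c1 := conv_step (m := 1) (t := D 0) zero_le_one c0 (by rw [eX]; exact intg_ridge hs hφ)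
  have hu' : lstep 1 (D 0) (fun x => Real.log (Φ' x)) = ridge lam w (A + cinc lam 1 (D 0) 0 (D 0))
      (D 0) (potStep 1 (svar lam w (D 0) 0 (D 0)) φ) := by rw [eX]; exact lstep_ridge hs hφ
  have c2 := potV_conv hm c1 (by rw [hu']; exact intg_potV h (lip1_potStep hφ zero_le_one _))
    (r + 1) le_rfl
  simp only [oneV, leafU_eq hp', leafI_eq hp']
  refine Tendsto.congr' ?_ (c2.2 0).2
  filter_upwards [hev] with L hL
  have hpL : ∀ x, 0 < Φ L x := fun x => zero_lt_one.trans_le (hL.2.2 x).1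
  simp only [leafU_eq hpL, leafI_eq hpL]

end Vale.Agent.P166F.Low
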