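import Vale.Agent.P157.Low.Parisi
import Vale.Agent.P157.Low.TiltLimitArr
import Vale.Agent.P157.RSB.CubeEntropy
import Vale.Agent.P166F.Low.Closed.Ridge

/-!
P166: the levels of an overlap path as variances of the nested averages, and the scalar recursion of
`log cosh`.
-/

namespace Vale.Agent.P166F.Low

open MeasureTheory ProbabilityTheory Filter Vale.Agent.P157.Low
open Vale.Agent.P166W (gauss)

variable {ι : Type} [Fintype ι] {r : ℕ} {m q : Fin (r + 1) → ℝ} {c : ℝ}

/-- The variance left below the level averaged at step `k`. -/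
noncomputable def bK (m q : Fin (r + 1) → ℝ) (c : ℝ) (k : ℕ) : ℝ :=
  if k ≤ r then below m q c (idx r k) else below m q c 0

/-- An overlap path on levels, with a positive variance. -/
structure OPath (m q : Fin (r + 1) → ℝ) (c : ℝ) : Prop where
  lev : Levels m
  mono : Monotone q
  nonneg : ∀ j, 0 ≤ q j
  ltOne : ∀ j, q j < 1
  pos : 0 < c

lemma OPath.m_nonneg (h : OPath m q c) (j : Fin (r + 1)) : 0 ≤ m j :=
  h.lev.zero ▸ h.lev.strict.monotone (Fin.zero_le j)

lemma OPath.m_pos (h : OPath m q c) {j : Fin (r + 1)} (hj : j ≠ 0) : 0 < m j :=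
  h.lev.zero ▸ h.lev.strict (Fin.pos_iff_ne_zero.2 hj)

lemma OPath.d_nonneg (h : OPath m q c) (j : Fin (r + 1)) : 0 ≤ c * incr q j :=
  mul_nonneg h.pos.le (P157.Low.incr_nonneg h.mono (h.nonneg 0) j)

lemma OPath.d_sum (_h : OPath m q c) : ∑ i, c * incr q i = c * q (Fin.last r) := by
  rw [← Finset.mul_sum, ← sum_incr q (Fin.last r)]
  congr 1
  exact Finset.sum_congr rfl fun i _ => (if_pos (Fin.le_last i)).symm

lemma bK_zero : bK m q c 0 = c * (1 - q (Fin.last r)) := by
  simp only [bK, Nat.zero_le, if_true, below, show idx r 0 = Fin.last r from rfl]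
  rw [Finset.sum_eq_zero fun i _ => if_neg (not_lt.2 (Fin.le_last i)), add_zero]

lemma bK_top : bK m q c (r + 1) = below m q c 0 := by simp [bK]

lemma bK_back (j : Fin (r + 1)) : bK m q c (r - (j : ℕ)) = below m q c j := by
  simp only [bK, Nat.sub_le, if_true]
  congr 1
  simp only [idx, Fin.ext_iff]
  omega

lemma bK_succ (hm : m 0 = 0) {k : ℕ} (hk : k ≤ r) :
    bK m q c (k + 1) = bK m q c k + m (idx r k) * (c * incr q (idx r k)) := by
  rcases hk.lt_or_eq with hlt | rfl
  · simp only [bK, hk, show k + 1 ≤ r from hlt, if_true, below]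
    have e : ∀ i : Fin (r + 1), (if idx r (k + 1) < i then m i * incr q i else 0) =
        (if idx r k < i then m i * incr q i else 0) + if i = idx r k then m i * incr q i else 0 := fun i => by
      have hi := i.isLt
      simp only [idx, Fin.lt_def, Fin.ext_iff]
      split_ifs <;> first | omega | simp
    simp only [e, Finset.sum_add_distrib, Finset.sum_ite_eq', Finset.mem_univ, if_true]
    ring
  · have h0 : idx k k = 0 := Fin.ext (by simp [idx])
    rw [h0, hm]
    simp [bK, h0]

lemma bK_succ_back (h : OPath m q c) (j : Fin (r + 1)) :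
    bK m q c (r - (j : ℕ) + 1) = below m q c j + m j * (c * incr q j) := by
  rw [bK_succ h.lev.zero (by omega), bK_back, show idx r (r - (j : ℕ)) = j from Fin.ext (by simp only [idx]; omega)]

lemma bK_eq (h : OPath m q c) : ∀ k ≤ r + 1,
    bK m q c k = bK m q c 0 + lsum (fun i => m i * (c * incr q i)) k := by
  intro k
  induction k with
  | zero => exact fun _ => by rw [lsum_zero, add_zero]
  | succ k ih =>
    intro hk
    rw [bK_succ h.lev.zero (by omega), ih (by omega), lsum_succ _ (by omega), add_assoc]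

lemma bK_bound (h : OPath m q c) {k : ℕ} (hk : k ≤ r + 1) :
    0 < bK m q c k ∧ bK m q c k ≤ below m q c 0 ∧ below m q c 0 ≤ c ∧
      bK m q c 0 ≤ bK m q c k := by
  have hn : ∀ i, 0 ≤ m i * (c * incr q i) := fun i => mul_nonneg (h.m_nonneg i) (h.d_nonneg i)
  have h0 : 0 < bK m q c 0 := by
    rw [bK_zero]; exact mul_pos h.pos (by linarith [h.ltOne (Fin.last r)])
  have h1 : bK m q c (r + 1) ≤ c := by
    rw [bK_eq h _ le_rfl, lsum_top, bK_zero]
    have : ∑ i, m i * (c * incr q i) ≤ ∑ i, c * incr q i :=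
      Finset.sum_le_sum fun i _ => mul_le_of_le_one_left (h.d_nonneg i) (h.lev.ltOne i).le
    rw [h.d_sum] at this
    linarith
  have h2 := bK_eq h k hk
  have h3 := lsum_nonneg hn k
  refine ⟨by linarith, ?_, bK_top (m := m) (q := q) (c := c) ▸ h1, by linarith⟩
  rw [← bK_top (m := m), bK_eq h _ le_rfl, h2, lsum_top]
  linarith [lsum_le hn k]

omit [Fintype ι] in
theorem dg_levels (h : OPath m q c) {lam : ι → ℝ} (hl : ∀ k ≤ r + 1, ∀ i, bK m q c k * lam i < 1) :
    Dg lam m (fun j => c * incr q j) (bK m q c) :=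
  ⟨fun k hk => ⟨h.m_nonneg _, h.d_nonneg _, bK_succ h.lev.zero hk, hl k (by omega), hl (k + 1) (by omega)⟩⟩

omit [Fintype ι] in
theorem leaf_ok (h : OPath m q c) {lam : ι → ℝ} (hl : ∀ k ≤ r + 1, ∀ i, bK m q c k * lam i < 1) :
    StepOK lam 1 (bK m q c 0) 0 (bK m q c 0) :=
  ⟨zero_le_one, (bK_bound h (Nat.zero_le _)).1.le, by ring, fun i => by rw [zero_mul]; exact one_pos,
    hl 0 (Nat.zero_le _)⟩

/-- The constants of the levels add up to the level sums of the directions. -/
theorem csc_total (h : OPath m q c) (lam : ι → ℝ) :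
    cinc lam 1 (bK m q c 0) 0 (bK m q c 0) + lsum (csc lam m (fun j => c * incr q j) (bK m q c)) (r + 1) =
      ∑ i, tLog m q c (lam i) := by
  simp only [tLog, llog, lsum_top]
  rw [Finset.sum_add_distrib, Finset.sum_sub_distrib, Finset.sum_comm]
  have hlast : below m q c (Fin.last r) = bK m q c 0 := by
    rw [← bK_back (Fin.last r)]; simp
  congr 1
  · simp only [cinc, one_ne_zero, if_false, hlast, zero_mul, sub_zero, Real.log_one, zero_sub, mul_one,
      Finset.sum_div]
    exact Finset.sum_congr rfl fun i _ => by rw [mul_comm (lam i)]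
  · rw [← Finset.add_sum_erase _ _ (Finset.mem_univ (0 : Fin (r + 1))),
      ← Finset.add_sum_erase _ _ (Finset.mem_univ (0 : Fin (r + 1)))]
    simp only [if_true, Finset.sum_const_zero, zero_add]
    rw [add_comm]
    rw [sub_eq_add_neg]
    congr 1
    · refine Finset.sum_congr rfl fun j hj => ?_
      have hj0 : j ≠ 0 := (Finset.mem_erase.1 hj).1
      simp only [csc, cinc, (h.m_pos hj0).ne', if_false, hj0, bK_back, bK_succ_back h, Finset.sum_div]
      exact Finset.sum_congr rfl fun i _ => by simp only [mul_comm (lam i)]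
    · simp only [csc, cinc, h.lev.zero, if_true, bK_back, incr_zero, Finset.mul_sum, Finset.sum_div,
        ← Finset.sum_neg_distrib]
      refine Finset.sum_congr rfl fun i _ => ?_
      simp only [mul_comm (lam i)]
      generalize 1 - below m q c 0 * lam i = Q
      ring

omit [Fintype ι] in
/-- The variances of a coordinate add up to its tilt. -/
theorem vsc_sum (h : OPath m q c) (lam : ι → ℝ) (l : ι) (j : Fin (r + 1)) :
    (∑ i, if i ≤ j then vsc lam (fun j => c * incr q j) (bK m q c) l i else 0) =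
      tilt m q c (lam l) j := by
  simp only [tilt]
  rw [← Finset.add_sum_erase _ _ (Finset.mem_univ (0 : Fin (r + 1))),
    ← Finset.add_sum_erase _ _ (Finset.mem_univ (0 : Fin (r + 1)))]
  simp only [Fin.zero_le, if_true, ne_eq, not_true, false_and, if_false, zero_add]
  congr 1
  · simp only [vsc, vinc, bK_back, bK_succ_back h, incr_zero, h.lev.zero, zero_mul, add_zero]
    rw [mul_comm (lam l), sq]
  · refine Finset.sum_congr rfl fun i hi => ?_
    have hi0 : i ≠ 0 := (Finset.mem_erase.1 hi).1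
    simp only [hi0, not_false_iff, true_and, vsc, vinc, bK_back, bK_succ_back h, mul_comm (lam l)]

omit [Fintype ι] in
/-- Total variance of a coordinate. -/
theorem vinc_total (h : OPath m q c) {lam : ι → ℝ} {ε : ℝ} (hε : 0 < ε)
    (hl : ∀ k ≤ r + 1, ∀ i, bK m q c k * lam i ≤ 1 - ε) (hε1 : ε ≤ 1) (i : ι) :
    0 ≤ vinc lam (bK m q c 0) 0 (bK m q c 0) i ∧
      (∀ j, 0 ≤ vsc lam (fun j => c * incr q j) (bK m q c) i j) ∧
      vinc lam (bK m q c 0) 0 (bK m q c 0) i + ∑ j, vsc lam (fun j => c * incr q j) (bK m q c) i j ≤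
        c / ε ^ 2 := by
  have h0 := (bK_bound h (Nat.zero_le (r + 1))).1
  have hb : ∀ {t a b : ℝ}, 0 ≤ t → ε ≤ a → ε ≤ b → 0 ≤ t / (a * b) ∧ t / (a * b) ≤ t / ε ^ 2 :=
    fun ht ha hb => ⟨div_nonneg ht (mul_nonneg (hε.le.trans ha) (hε.le.trans hb)),
      div_le_div_of_nonneg_left ht (by positivity)
        (by rw [sq]; exact mul_le_mul ha hb hε.le (hε.le.trans ha))⟩
  have e0 := hb h0.le (show ε ≤ 1 - 0 * lam i by simpa using hε1)
    (show ε ≤ 1 - bK m q c 0 * lam i by linarith [hl 0 (Nat.zero_le _) i])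
  have ej : ∀ j : Fin (r + 1), 0 ≤ vsc lam (fun j => c * incr q j) (bK m q c) i j ∧
      vsc lam (fun j => c * incr q j) (bK m q c) i j ≤ c * incr q j / ε ^ 2 := fun j =>
    hb (h.d_nonneg j) (by linarith [hl (r - (j : ℕ)) (by omega) i])
      (by linarith [hl (r - (j : ℕ) + 1) (by omega) i])
  refine ⟨e0.1, fun j => (ej j).1, ?_⟩
  have h2 := Finset.sum_le_sum fun j (_ : j ∈ Finset.univ) => (ej j).2
  rw [← Finset.sum_div, h.d_sum] at h2
  have h3 := add_le_add e0.2 h2
  refine h3.trans_eq ?_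
  rw [← add_div, bK_zero]
  ring_nf

/-- The majorant at the root. -/
theorem esum_root_le (h : OPath m q c) {lam w : ι → ℝ} {ε cmax W C : ℝ} (hε : 0 < ε) (hε1 : ε ≤ 1)
    (hl : ∀ k ≤ r + 1, ∀ i, bK m q c k * lam i ≤ 1 - ε) (hc : c ≤ cmax) (hw : ∀ i, |w i| ≤ W)
    (hC : 0 ≤ C) :
    esum lam C (bK m q c (r + 1)) (fun i =>
        (1 / 2 + 1 * |w i|) * vinc lam (bK m q c 0) 0 (bK m q c 0) i +
          lsum (fun j => (1 / 2 + m j * |w i|) * vsc lam (fun j => c * incr q j) (bK m q c) i j) (r + 1))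
        0 ≤
      C * (1 + (Fintype.card ι : ℝ) * (2 * Real.exp ((1 / 2 + W) * (cmax / ε ^ 2)))) := by
  simp only [esum, Pi.zero_apply, zero_div, zero_add, neg_zero, ← two_mul, lsum_top]
  refine mul_le_mul_of_nonneg_left (add_le_add le_rfl ?_) hC
  rw [← Finset.card_univ, ← nsmul_eq_mul]
  refine Finset.sum_le_card_nsmul _ _ _ fun i _ => ?_
  obtain ⟨h1, h2, h3⟩ := vinc_total h hε hl hε1 i
  refine mul_le_mul_of_nonneg_left (Real.exp_le_exp.2 ?_) two_pos.le
  have hW : 0 ≤ W := (abs_nonneg _).trans (hw i)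
  have h4 : ∑ j, (1 / 2 + m j * |w i|) * vsc lam (fun j => c * incr q j) (bK m q c) i j ≤
      (1 / 2 + W) * ∑ j, vsc lam (fun j => c * incr q j) (bK m q c) i j := by
    rw [Finset.mul_sum]
    refine Finset.sum_le_sum fun j _ => mul_le_mul_of_nonneg_right (add_le_add le_rfl ?_) (h2 j)
    exact (mul_le_of_le_one_left (abs_nonneg _) (h.lev.ltOne j).le).trans (hw i)
  have h5 := mul_le_mul_of_nonneg_right (show 1 / 2 + 1 * |w i| ≤ 1 / 2 + W by linarith [hw i]) h1
  calc _ ≤ (1 / 2 + W) * (vinc lam (bK m q c 0) 0 (bK m q c 0) i +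
        ∑ j, vsc lam (fun j => c * incr q j) (bK m q c) i j) := by rw [mul_add]; exact add_le_add h5 h4
    _ ≤ (1 / 2 + W) * (cmax / ε ^ 2) := mul_le_mul_of_nonneg_left
        (h3.trans (div_le_div_of_nonneg_right hc (by positivity))) (by linarith)

/-! ### `log cosh` -/

/-- `log cosh`. -/
noncomputable def lch (x : ℝ) : ℝ := Real.log (Real.cosh x)

lemma lip1_lch : Lip1 lch := fun x y => by
  simpa [lch] using Vale.Agent.P157.RSB.log_cosh_lip y (x - y)

lemma exp_lch (x : ℝ) : Real.exp (lch x) = Real.cosh x := Real.exp_log (Real.cosh_pos x)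

lemma lip1_zero : Lip1 fun _ : ℝ => (0 : ℝ) := fun x y => by simp

lemma potStep_lch {τ : ℝ} (hτ : 0 ≤ τ) : potStep 1 τ lch = fun y => lch y + τ / 2 := by
  funext y
  simp only [potStep, one_ne_zero, if_false, div_one, one_mul, heat, exp_lch]
  have := integral_cosh_gauss 1 y hτ
  simp only [one_mul, one_pow] at this
  rw [this, Real.log_mul (Real.exp_pos _).ne' (Real.cosh_pos _).ne', Real.log_exp, lch]
  ring

lemma integral_sinh_gauss (y : ℝ) {s : ℝ} (hs : 0 ≤ s) :
    ∫ z, Real.sinh (y + Real.sqrt s * z) ∂gaussianReal 0 1 = Real.exp (s / 2) * Real.sinh y := by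
  have e : ∀ z, Real.sinh (y + Real.sqrt s * z) =
      Real.exp y / 2 * Real.exp (Real.sqrt s * z) -
        Real.exp (-y) / 2 * Real.exp ((-Real.sqrt s) * z) := fun z => by
    rw [Real.sinh_eq, div_mul_eq_mul_div, div_mul_eq_mul_div, ← Real.exp_add, ← Real.exp_add, ← sub_div]
    ring_nf
  simp only [e]
  rw [integral_sub ((integrable_exp_mul_gaussianReal _).const_mul _)
    ((integrable_exp_mul_gaussianReal _).const_mul _), integral_const_mul, integral_const_mul,
    integral_exp_gauss, integral_exp_gauss, neg_sq, Real.sq_sqrt hs, Real.sinh_eq]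
  ring

lemma insStep_tanh {τ : ℝ} (hτ : 0 ≤ τ) : insStep 1 τ lch Real.tanh = Real.tanh := by
  funext y
  have e : ∀ x, Real.cosh x * Real.tanh x = Real.sinh x := fun x => by
    rw [Real.tanh_eq_sinh_div_cosh, mul_div_cancel₀ _ (Real.cosh_pos x).ne']
  simp only [insStep, one_mul, heat, exp_lch, e]
  have := integral_cosh_gauss 1 y hτ
  simp only [one_mul, one_pow] at this
  rw [this, integral_sinh_gauss y hτ, Real.tanh_eq_sinh_div_cosh,
    mul_div_mul_left _ _ (Real.exp_pos _).ne']

lemma potUp_zero (m τ : Fin (r + 1) → ℝ) : ∀ k, potUp m τ (fun _ => (0 : ℝ)) k = fun _ => 0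
  | 0 => rfl
  | k + 1 => by
    by_cases hk : k ≤ r
    · rw [potUp_succ _ _ _ hk, potUp_zero m τ k]
      funext y
      simp only [potStep]
      split <;> simp [heat]
    · simp only [potUp, hk, dite_false, potUp_zero m τ k]

/-- One step raises `log cosh` by at least half its exponent times the variance. -/
lemma lch_step {φ : ℝ → ℝ} (hφ : Lip1 φ) {a : ℝ} (h : ∀ x, lch x + a ≤ φ x) {m τ : ℝ} (hm : 0 ≤ m)
    (hm1 : m ≤ 1) (hτ : 0 ≤ τ) (y : ℝ) : lch y + (a + m * τ / 2) ≤ potStep m τ φ y := by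
  set s := Real.sqrt τ
  set p := Real.exp y / (Real.exp y + Real.exp (-y))
  set p' := Real.exp (-y) / (Real.exp y + Real.exp (-y))
  have hp : 0 ≤ p := by positivity
  have hp' : 0 ≤ p' := by positivity
  have hpp : p + p' = 1 := by
    rw [← add_div, div_self (by positivity)]
  have hc : ∀ u, Real.cosh (y + u) = Real.cosh y * (p * Real.exp u + p' * Real.exp (-u)) := fun u => by
    simp only [p, p', Real.cosh_eq, neg_add, Real.exp_add]
    field_simp
  simp only [potStep]
  split
  · next h0 =>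
    subst h0
    rw [zero_mul, zero_div, add_zero]
    have hl : ∀ z, (lch y + a) + (p - p') * (s * z) ≤ φ (y + s * z) := fun z => by
      refine le_trans ?_ (h _)
      have hj := convexOn_exp.2 (Set.mem_univ (s * z)) (Set.mem_univ (-(s * z))) hp hp' hpp
      simp only [smul_eq_mul] at hj
      have := Real.log_le_log (mul_pos (Real.cosh_pos y) (Real.exp_pos _))
        (mul_le_mul_of_nonneg_left hj (Real.cosh_pos y).le)
      rw [← hc, Real.log_mul (Real.cosh_pos y).ne' (Real.exp_pos _).ne', Real.log_exp] at this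
      simp only [lch]
      linarith
    have hi : Integrable (fun z : ℝ => (p - p') * (s * z)) (gaussianReal 0 1) :=
      ((IsGaussian.integrable_id (μ := gaussianReal 0 1)).const_mul _).const_mul _
    have := integral_mono ((integrable_const (lch y + a)).add hi) (integrable_shift hφ y s) hl
    simp only [Pi.add_apply] at this
    rw [integral_add (integrable_const _) hi, integral_const_mul, integral_const_mul,
      integral_id_gaussianReal] at this
    simpa [heat] using this
  · next h0 =>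
    have hmp : 0 < m := lt_of_le_of_ne hm (Ne.symm h0)
    rw [le_div_iff₀ hmp, Real.le_log_iff_exp_le (heat_exp_pos hφ _ _ _)]
    have hl : ∀ z, Real.exp (m * (lch y + a)) *
        (p * Real.exp (m * s * z) + p' * Real.exp (-(m * s) * z)) ≤
        Real.exp (m * φ (y + s * z)) := fun z => by
      refine le_trans ?_ (Real.exp_le_exp.2 (mul_le_mul_of_nonneg_left (h _) hm))
      have hj := (Real.concaveOn_rpow hm hm1).2 (Set.mem_Ici.2 (Real.exp_pos (s * z)).le)
        (Set.mem_Ici.2 (Real.exp_pos (-(s * z))).le) hp hp' hpp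
      simp only [smul_eq_mul, ← Real.exp_mul] at hj
      have e : Real.exp (m * (lch (y + s * z) + a)) =
          Real.exp (m * (lch y + a)) * (p * Real.exp (s * z) + p' * Real.exp (-(s * z))) ^ m := by
        have hpos : 0 < p * Real.exp (s * z) + p' * Real.exp (-(s * z)) :=
          (mul_pos_iff_of_pos_left (Real.cosh_pos y)).1 (hc (s * z) ▸ Real.cosh_pos _)
        rw [Real.rpow_def_of_pos hpos, ← Real.exp_add, lch, hc,
          Real.log_mul (Real.cosh_pos y).ne' hpos.ne', lch]
        ring_nf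
      rw [e]
      refine mul_le_mul_of_nonneg_left (le_trans (le_of_eq ?_) hj) (Real.exp_pos _).le
      ring_nf
    have i1 : ∀ b, Integrable (fun z : ℝ => Real.exp (b * z)) (gaussianReal 0 1) :=
      integrable_exp_mul_gaussianReal
    have := integral_mono ((((i1 (m * s)).const_mul p).add ((i1 (-(m * s))).const_mul p')).const_mul _)
      (integrable_exp_shift hφ m y s) hl
    simp only [Pi.add_apply] at this
    rw [integral_const_mul, integral_add ((i1 _).const_mul p) ((i1 _).const_mul p'), integral_const_mul,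
      integral_const_mul, integral_exp_gauss, integral_exp_gauss, neg_sq, ← add_mul, hpp, one_mul,
      ← Real.exp_add] at this
    refine le_trans (le_of_eq ?_) this
    congr 1
    rw [mul_pow, Real.sq_sqrt hτ]
    ring

lemma potUp_lch_ge {τ : Fin (r + 1) → ℝ} (hm : ∀ j, 0 ≤ m j) (hm1 : ∀ j, m j ≤ 1)
    (hτ : ∀ j, 0 ≤ τ j) : ∀ k ≤ r + 1,
    Lip1 (potUp m τ lch k) ∧ ∀ y, lch y + lsum (fun j => m j * τ j / 2) k ≤ potUp m τ lch k y := by
  intro k
  induction k with
  | zero => exact fun _ => ⟨lip1_lch, fun y => by rw [lsum_zero, add_zero]; exact le_rfl⟩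
  | succ k ih =>
    intro hk
    have hk' : k ≤ r := by omega
    obtain ⟨hl, hb⟩ := ih (by omega)
    rw [potUp_succ _ _ _ hk']
    refine ⟨lip1_potStep hl (hm _) _, fun y => ?_⟩
    rw [lsum_succ _ hk']
    exact lch_step hl hb (hm _) (hm1 _) (hτ _) y

/-! ### Elementary bounds -/

lemma sq_le_exp (x : ℝ) : x ^ 2 ≤ 2 * (Real.exp x + Real.exp (-x)) := by
  have := Real.pow_div_factorial_le_exp _ (abs_nonneg x) 2
  rw [sq_abs, div_le_iff₀ (by simp [Nat.factorial])] at this
  rcases abs_cases x with ⟨h, _⟩ | ⟨h, _⟩ <;> rw [h] at this <;> norm_num [Nat.factorial] at this <;>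
    linarith [Real.exp_pos x, Real.exp_pos (-x)]

lemma pow_four_le_exp (x : ℝ) : x ^ 4 ≤ 24 * (Real.exp x + Real.exp (-x)) := by
  have := Real.pow_div_factorial_le_exp _ (abs_nonneg x) 4
  rw [Even.pow_abs (by decide), div_le_iff₀ (by simp [Nat.factorial])] at this
  rcases abs_cases x with ⟨h, _⟩ | ⟨h, _⟩ <;> rw [h] at this <;> norm_num [Nat.factorial] at this <;>
    linarith [Real.exp_pos x, Real.exp_pos (-x)]

end Vale.Agent.P166F.Low
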