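import Vale.Agent.P166F.Low.Closed.Gauss

/-!
P166: general facts on the nested averages: single steps, rotations, monotonicity with the cost of a
change of the potential, and dominated limits.
-/

namespace Vale.Agent.P166F.Low

open MeasureTheory ProbabilityTheory Filter Vale.Agent.P157.Low
open Vale.Agent.P166W (gauss)
open scoped Topology

variable {ι : Type} [Fintype ι] {r : ℕ}

/-- The point reached from `y` by the noise `z` of variance `t`. -/
noncomputable def shf (t : ℝ) (y z : ι → ℝ) : ι → ℝ := fun i => y i + Real.sqrt t * z i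

/-- One step of the nested potential. -/
noncomputable def lstep (m t : ℝ) (X : (ι → ℝ) → ℝ) : (ι → ℝ) → ℝ :=
  if m = 0 then heatV X t else fun y => Real.log (heatV (fun x => Real.exp (m * X x)) t y) / m

/-- One step of an insertion. -/
noncomputable def istep (m t : ℝ) (X η : (ι → ℝ) → ℝ) : (ι → ℝ) → ℝ :=
  fun y => heatV (fun x => Real.exp (m * X x) * η x) t y / heatV (fun x => Real.exp (m * X x)) t y

/-- The level averaged at step `k`. -/
def idx (r k : ℕ) : Fin (r + 1) := ⟨r - k, by omega⟩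

lemma heatV_eq (F : (ι → ℝ) → ℝ) (t : ℝ) (y : ι → ℝ) :
    heatV F t y = ∫ z, F (shf t y z) ∂gauss ι := rfl

lemma potV_succ (m d : Fin (r + 1) → ℝ) (u : (ι → ℝ) → ℝ) {k : ℕ} (hk : k ≤ r) :
    potV m d u (k + 1) = lstep (m (idx r k)) (d (idx r k)) (potV m d u k) := by
  simp only [potV, hk, dite_true]
  rfl

lemma insV_succ (m d : Fin (r + 1) → ℝ) (u θ : (ι → ℝ) → ℝ) {k : ℕ} (hk : k ≤ r) :
    insV m d u θ (k + 1) = istep (m (idx r k)) (d (idx r k)) (potV m d u k) (insV m d u θ k) := by
  simp only [insV, hk, dite_true]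
  rfl

lemma leafU_eq {Φ : (ι → ℝ) → ℝ} (h : ∀ x, 0 < Φ x) (rest : ℝ) :
    leafU Φ rest = lstep 1 rest fun x => Real.log (Φ x) := by
  funext y
  simp [leafU, lstep, Real.exp_log (h _)]

lemma leafI_eq {Φ : (ι → ℝ) → ℝ} (h : ∀ x, 0 < Φ x) (θ : (ι → ℝ) → ℝ) (rest : ℝ) :
    leafI Φ θ rest = istep 1 rest (fun x => Real.log (Φ x)) θ := by
  funext y
  simp [leafI, istep, Real.exp_log (h _), mul_comm]

omit [Fintype ι] in
lemma measurable_shf (t : ℝ) : Measurable fun p : (ι → ℝ) × (ι → ℝ) => shf t p.1 p.2 := by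
  unfold shf
  fun_prop

omit [Fintype ι] in
lemma measurable_shf_right (t : ℝ) (y : ι → ℝ) : Measurable fun z : ι → ℝ => shf t y z :=
  (measurable_shf t).comp (measurable_const.prodMk measurable_id)

lemma measurable_heatV {F : (ι → ℝ) → ℝ} (hF : Measurable F) (t : ℝ) : Measurable (heatV F t) :=
  ((hF.comp (measurable_shf t)).stronglyMeasurable.integral_prod_right'
    (ν := gauss ι)).measurable

lemma measurable_lstep {X : (ι → ℝ) → ℝ} (hX : Measurable X) (m t : ℝ) : Measurable (lstep m t X) := by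
  rw [lstep]
  split
  · exact measurable_heatV hX t
  · exact (measurable_heatV (by fun_prop : Measurable fun x => Real.exp (m * X x)) t).log.div_const m

lemma measurable_istep {X η : (ι → ℝ) → ℝ} (hX : Measurable X) (hη : Measurable η) (m t : ℝ) :
    Measurable (istep m t X η) :=
  (measurable_heatV (by fun_prop : Measurable fun x => Real.exp (m * X x) * η x) t).div
    (measurable_heatV (by fun_prop : Measurable fun x => Real.exp (m * X x)) t)

lemma measurable_potV {m d : Fin (r + 1) → ℝ} {u : (ι → ℝ) → ℝ} (hu : Measurable u) :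
    ∀ k, Measurable (potV m d u k)
  | 0 => hu
  | k + 1 => by
    by_cases hk : k ≤ r
    · rw [potV_succ _ _ _ hk]; exact measurable_lstep (measurable_potV hu k) _ _
    · simp only [potV, hk, dite_false]; exact measurable_potV hu k

lemma measurable_insV {m d : Fin (r + 1) → ℝ} {u θ : (ι → ℝ) → ℝ} (hu : Measurable u)
    (hθ : Measurable θ) : ∀ k, Measurable (insV m d u θ k)
  | 0 => hθ
  | k + 1 => by
    by_cases hk : k ≤ r
    · rw [insV_succ _ _ _ _ hk]
      exact measurable_istep (measurable_potV hu k) (measurable_insV hu hθ k) _ _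
    · simp only [insV, hk, dite_false]; exact measurable_insV hu hθ k

/-! ### Rotations -/

/-- A linear map preserving the standard Gaussian vector. -/
structure Rot (R : (ι → ℝ) → ι → ℝ) : Prop where
  mp : MeasurePreserving R (gauss ι) (gauss ι)
  emb : MeasurableEmbedding R
  shift : ∀ t y z, R (shf t y z) = shf t (R y) (R z)
  zero : R 0 = 0

lemma rot_mulVec [DecidableEq ι] (O : Matrix ι ι ℝ) (hO : O.transpose * O = 1) :
    Rot fun z => O.mulVec z := by
  have hm : ∀ M : Matrix ι ι ℝ, Measurable fun z : ι → ℝ => M.mulVec z := fun M => by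
    unfold Matrix.mulVec dotProduct; fun_prop
  let E : (ι → ℝ) ≃ᵐ (ι → ℝ) :=
    { toFun := fun z => O.mulVec z
      invFun := fun z => O.transpose.mulVec z
      left_inv := fun z => by simp [Matrix.mulVec_mulVec, hO]
      right_inv := fun z => by simp [Matrix.mulVec_mulVec, mul_eq_one_comm.1 hO]
      measurable_toFun := hm O
      measurable_invFun := hm O.transpose }
  refine ⟨⟨hm O, P166W.map_gauss_mulVec O hO⟩, E.measurableEmbedding, fun t y z => ?_,
    Matrix.mulVec_zero O⟩
  show O.mulVec (y + Real.sqrt t • z) = O.mulVec y + Real.sqrt t • O.mulVec z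
  rw [Matrix.mulVec_add, Matrix.mulVec_smul]

variable {R : (ι → ℝ) → ι → ℝ}

lemma heatV_rot (hR : Rot R) (F : (ι → ℝ) → ℝ) (t : ℝ) (y : ι → ℝ) :
    heatV (fun x => F (R x)) t y = heatV F t (R y) := by
  simp only [heatV_eq, hR.shift]
  exact hR.mp.integral_comp hR.emb fun z => F (shf t (R y) z)

lemma lstep_rot (hR : Rot R) (X : (ι → ℝ) → ℝ) (m t : ℝ) :
    lstep m t (fun x => X (R x)) = fun y => lstep m t X (R y) := by
  funext y
  simp only [lstep]
  split
  · exact heatV_rot hR X t y
  · simp only [heatV_rot hR (fun x => Real.exp (m * X x)) t y]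

lemma istep_rot (hR : Rot R) (X η : (ι → ℝ) → ℝ) (m t : ℝ) :
    istep m t (fun x => X (R x)) (fun x => η (R x)) = fun y => istep m t X η (R y) := by
  funext y
  simp only [istep]
  rw [heatV_rot hR (fun x => Real.exp (m * X x) * η x), heatV_rot hR (fun x => Real.exp (m * X x))]

lemma potV_rot (hR : Rot R) (m d : Fin (r + 1) → ℝ) (u : (ι → ℝ) → ℝ) : ∀ k,
    potV m d (fun x => u (R x)) k = fun y => potV m d u k (R y)
  | 0 => rfl
  | k + 1 => by
    by_cases hk : k ≤ r
    · rw [potV_succ _ _ _ hk, potV_succ _ _ _ hk, potV_rot hR m d u k, lstep_rot hR]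
    · simp only [potV, hk, dite_false, potV_rot hR m d u k]

lemma insV_rot (hR : Rot R) (m d : Fin (r + 1) → ℝ) (u θ : (ι → ℝ) → ℝ) : ∀ k,
    insV m d (fun x => u (R x)) (fun x => θ (R x)) k = fun y => insV m d u θ k (R y)
  | 0 => rfl
  | k + 1 => by
    by_cases hk : k ≤ r
    · rw [insV_succ _ _ _ _ hk, insV_succ _ _ _ _ hk, potV_rot hR m d u k, insV_rot hR m d u θ k,
        istep_rot hR]
    · simp only [insV, hk, dite_false, insV_rot hR m d u θ k]

lemma leafU_rot (hR : Rot R) (Φ : (ι → ℝ) → ℝ) (rest : ℝ) :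
    leafU (fun x => Φ (R x)) rest = fun y => leafU Φ rest (R y) := by
  funext y
  simp only [leafU, heatV_rot hR Φ]

lemma leafI_rot (hR : Rot R) (Φ θ : (ι → ℝ) → ℝ) (rest : ℝ) :
    leafI (fun x => Φ (R x)) (fun x => θ (R x)) rest = fun y => leafI Φ θ rest (R y) := by
  funext y
  simp only [leafI]
  rw [heatV_rot hR (fun x => θ x * Φ x), heatV_rot hR Φ]

lemma valV_rot (hR : Rot R) (m d : Fin (r + 1) → ℝ) (rest : ℝ) (Φ : (ι → ℝ) → ℝ) :
    valV m d rest (fun x => Φ (R x)) = valV m d rest Φ := by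
  simp only [valV, leafU_rot hR, potV_rot hR, hR.zero]

lemma twoV_rot (hR : Rot R) (m d : Fin (r + 1) → ℝ) (rest : ℝ) (Φ θ θ' : (ι → ℝ) → ℝ)
    (j : Fin (r + 1)) :
    twoV m d rest (fun x => Φ (R x)) (fun x => θ (R x)) (fun x => θ' (R x)) j =
      twoV m d rest Φ θ θ' j := by
  simp only [twoV, pairV, leafU_rot hR, leafI_rot hR, potV_rot hR, insV_rot hR]
  rw [insV_rot hR _ _ _ (fun y => insV m d (leafU Φ rest) (leafI Φ θ rest) (r - j) y *
    insV m d (leafU Φ rest) (leafI Φ θ' rest) (r - j) y)]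
  simp only [hR.zero]

/-! ### Monotonicity -/

/-- Integrability of a potential along one step. -/
def Intg (m t : ℝ) (X : (ι → ℝ) → ℝ) : Prop :=
  ∀ y, Integrable (fun z => X (shf t y z)) (gauss ι) ∧
    Integrable (fun z => Real.exp (m * X (shf t y z))) (gauss ι)

lemma lstep_mem {m t : ℝ} (hm : 0 ≤ m) {X X' : (ι → ℝ) → ℝ} (hX : Measurable X)
    (h : ∀ x, 0 ≤ X x ∧ X x ≤ X' x) (hI : Intg m t X') :
    Intg m t X ∧ ∀ y, 0 ≤ lstep m t X y ∧ lstep m t X y ≤ lstep m t X' y := by
  have hI' : Intg m t X := fun y =>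
    ⟨(hI y).1.mono' (hX.comp (measurable_shf_right t y)).aestronglyMeasurable
      (Eventually.of_forall fun z => by
        simp only [Real.norm_eq_abs, abs_of_nonneg (h _).1]; exact (h _).2),
    (hI y).2.mono' ((hX.comp (measurable_shf_right t y)).const_mul m).exp.aestronglyMeasurable
      (Eventually.of_forall fun z => by
        rw [Real.norm_eq_abs, Real.abs_exp]
        exact Real.exp_le_exp.2 (mul_le_mul_of_nonneg_left (h _).2 hm))⟩
  refine ⟨hI', fun y => ?_⟩
  simp only [lstep]
  split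
  · exact ⟨integral_nonneg fun z => (h _).1, integral_mono (hI' y).1 (hI y).1 fun z => (h _).2⟩
  · next hm0 =>
    have hmp : 0 < m := lt_of_le_of_ne hm (Ne.symm hm0)
    have h1 : 1 ≤ heatV (fun x => Real.exp (m * X x)) t y := by
      rw [heatV_eq]
      calc (1 : ℝ) = ∫ _z, (1 : ℝ) ∂gauss ι := by simp
        _ ≤ _ := integral_mono (integrable_const _) (hI' y).2 fun z =>
            Real.one_le_exp (mul_nonneg hm (h _).1)
    have h2 : heatV (fun x => Real.exp (m * X x)) t y ≤ heatV (fun x => Real.exp (m * X' x)) t y :=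
      integral_mono (hI' y).2 (hI y).2 fun z =>
        Real.exp_le_exp.2 (mul_le_mul_of_nonneg_left (h _).2 hm)
    exact ⟨div_nonneg (Real.log_nonneg h1) hm,
      div_le_div_of_nonneg_right (Real.log_le_log (by linarith) h2) hm⟩

/-- Raising a potential by at most `η` raises the step by at most the tilted average of `η`. -/
lemma lstep_gap {m t : ℝ} (hm : 0 ≤ m) {X X' η : (ι → ℝ) → ℝ} (hX : Measurable X)
    (h : ∀ x, 0 ≤ X x ∧ X x ≤ X' x) (hI : Intg m t X') (hη : ∀ x, X' x - X x ≤ η x)
    (hiη : ∀ y, Integrable (fun z => Real.exp (m * X' (shf t y z)) * η (shf t y z)) (gauss ι))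
    (y : ι → ℝ) : lstep m t X' y - lstep m t X y ≤ istep m t X' η y := by
  obtain ⟨hI', -⟩ := lstep_mem hm hX h hI
  rcases eq_or_ne m 0 with rfl | hm0
  · have hi : Integrable (fun z => η (shf t y z)) (gauss ι) := by simpa using hiη y
    simp only [lstep, istep, if_true, zero_mul, Real.exp_zero, one_mul, heatV_eq, integral_const,
      probReal_univ, smul_eq_mul, div_one]
    rw [← integral_sub (hI y).1 (hI' y).1]
    exact integral_mono ((hI y).1.sub (hI' y).1) hi fun z => hη _
  have hmp : 0 < m := lt_of_le_of_ne hm (Ne.symm hm0)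
  set c := istep m t X' η y with hc
  simp only [lstep, hm0, if_false]
  set Z := heatV (fun x => Real.exp (m * X x)) t y with hZ
  set Z' := heatV (fun x => Real.exp (m * X' x)) t y with hZ'
  have hZ'0 : 0 < Z' := by
    rw [hZ', heatV_eq]; exact integral_exp_pos (hI y).2
  have hZ0 : 0 < Z := by
    rw [hZ, heatV_eq]; exact integral_exp_pos (hI' y).2
  have key : Real.exp (-(m * c)) * Z' ≤ Z := by
    have e : ∀ z, Real.exp (-(m * c)) * ((1 + m * c) * Real.exp (m * X' (shf t y z)) -
        m * (Real.exp (m * X' (shf t y z)) * η (shf t y z))) ≤ Real.exp (m * X (shf t y z)) := by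
      intro z
      set x := shf t y z
      have h1 := Real.add_one_le_exp (m * c - m * η x)
      have h2 : m * X' x - m * η x ≤ m * X x := by
        rw [← mul_sub]; exact mul_le_mul_of_nonneg_left (by linarith [hη x]) hm
      calc Real.exp (-(m * c)) * ((1 + m * c) * Real.exp (m * X' x) - m * (Real.exp (m * X' x) * η x))
          = Real.exp (-(m * c)) * Real.exp (m * X' x) * (m * c - m * η x + 1) := by ring
        _ ≤ Real.exp (-(m * c)) * Real.exp (m * X' x) * Real.exp (m * c - m * η x) := by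
            exact mul_le_mul_of_nonneg_left h1 (by positivity)
        _ = Real.exp (m * X' x - m * η x) := by rw [← Real.exp_add, ← Real.exp_add]; ring_nf
        _ ≤ _ := Real.exp_le_exp.2 h2
    have hcc : heatV (fun x => Real.exp (m * X' x) * η x) t y = c * Z' := by
      rw [hc, istep, hZ', div_mul_cancel₀]
      exact (hZ' ▸ hZ'0.ne')
    have i1 := ((hI y).2.const_mul (1 + m * c))
    have i2 := ((hiη y).const_mul m)
    have hle := integral_mono ((i1.sub i2).const_mul (Real.exp (-(m * c)))) (hI' y).2 e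
    simp only [Pi.sub_apply] at hle
    rw [integral_const_mul, integral_sub i1 i2, integral_const_mul, integral_const_mul] at hle
    rw [heatV_eq] at hcc
    rw [hcc, ← heatV_eq (fun x => Real.exp (m * X x)), ← heatV_eq (fun x => Real.exp (m * X' x)),
      ← hZ, ← hZ'] at hle
    linarith [hle]
  rw [← sub_div, div_le_iff₀ hmp]
  have := Real.log_le_log (mul_pos (Real.exp_pos _) hZ'0) key
  rw [Real.log_mul (Real.exp_pos _).ne' hZ'0.ne', Real.log_exp] at this
  linarith

/-- The value rises by at most the carried bound on the rise of the potential. -/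
theorem potV_gap {m d : Fin (r + 1) → ℝ} (hm : ∀ j, 0 ≤ m j) {u u' : (ι → ℝ) → ℝ}
    (hu : Measurable u) (h : ∀ x, 0 ≤ u x ∧ u x ≤ u' x)
    (hI : ∀ k ≤ r, Intg (m (idx r k)) (d (idx r k)) (potV m d u' k))
    (η : ℕ → (ι → ℝ) → ℝ) (h0 : ∀ x, u' x - u x ≤ η 0 x)
    (hiη : ∀ k ≤ r, ∀ y, Integrable (fun z => Real.exp (m (idx r k) *
      potV m d u' k (shf (d (idx r k)) y z)) * η k (shf (d (idx r k)) y z)) (gauss ι))
    (hη : ∀ k ≤ r, ∀ y, istep (m (idx r k)) (d (idx r k)) (potV m d u' k) (η k) y ≤ η (k + 1) y) :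
    ∀ k ≤ r + 1, ∀ x, 0 ≤ potV m d u k x ∧ potV m d u k x ≤ potV m d u' k x ∧
      potV m d u' k x - potV m d u k x ≤ η k x := by
  intro k
  induction k with
  | zero => exact fun _ x => ⟨(h x).1, (h x).2, h0 x⟩
  | succ k ih =>
    intro hk x
    have hk' : k ≤ r := by omega
    have hih := ih (by omega)
    have hmem : ∀ x, 0 ≤ potV m d u k x ∧ potV m d u k x ≤ potV m d u' k x :=
      fun x => ⟨(hih x).1, (hih x).2.1⟩
    rw [potV_succ _ _ _ hk', potV_succ _ _ _ hk']
    exact ⟨((lstep_mem (hm _) (measurable_potV hu k) hmem (hI k hk')).2 x).1,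
      ((lstep_mem (hm _) (measurable_potV hu k) hmem (hI k hk')).2 x).2,
      (lstep_gap (hm _) (measurable_potV hu k) hmem (hI k hk') (fun x => (hih x).2.2) (hiη k hk')
        x).trans (hη k hk' x)⟩

/-! ### Limits -/

/-- Potentials and insertions below `X'` and `B` converging pointwise. -/
def Conv (X : ℝ → (ι → ℝ) → ℝ) (X' : (ι → ℝ) → ℝ) (η : ℝ → (ι → ℝ) → ℝ) (η' : (ι → ℝ) → ℝ)
    (B : ℝ) : Prop :=
  (∀ᶠ L in atTop, Measurable (X L) ∧ Measurable (η L) ∧
      ∀ x, 0 ≤ X L x ∧ X L x ≤ X' x ∧ |η L x| ≤ B) ∧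
    ∀ x, Tendsto (fun L => X L x) atTop (𝓝 (X' x)) ∧ Tendsto (fun L => η L x) atTop (𝓝 (η' x))

theorem conv_step {m t : ℝ} (hm : 0 ≤ m) {X : ℝ → (ι → ℝ) → ℝ} {X' : (ι → ℝ) → ℝ}
    {η : ℝ → (ι → ℝ) → ℝ} {η' : (ι → ℝ) → ℝ} {B : ℝ} (h : Conv X X' η η' B) (hI : Intg m t X') :
    Conv (fun L => lstep m t (X L)) (lstep m t X') (fun L => istep m t (X L) (η L))
      (istep m t X' η') B := by
  obtain ⟨hev, hlim⟩ := h
  refine ⟨hev.mono fun L hL => ?_, fun y => ?_⟩
  · obtain ⟨hXm, hηm, hb⟩ := hL
    obtain ⟨hI', hmem⟩ := lstep_mem hm hXm (fun x => ⟨(hb x).1, (hb x).2.1⟩) hI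
    refine ⟨measurable_lstep hXm m t, measurable_istep hXm hηm m t, fun y => ⟨(hmem y).1, (hmem y).2, ?_⟩⟩
    have hp : 0 < heatV (fun x => Real.exp (m * X L x)) t y := integral_exp_pos (hI' y).2
    simp only [istep]
    rw [abs_div, abs_of_pos hp, div_le_iff₀ hp, heatV_eq, heatV_eq, ← integral_const_mul]
    refine abs_integral_le_integral_abs.trans (integral_mono_of_nonneg
      (Eventually.of_forall fun z => abs_nonneg _) ((hI' y).2.const_mul B)
      (Eventually.of_forall fun z => ?_))
    simp only [abs_mul, Real.abs_exp, mul_comm B]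
    exact mul_le_mul_of_nonneg_left (hb _).2.2 (Real.exp_pos _).le
  have hpos : 0 < heatV (fun x => Real.exp (m * X' x)) t y := integral_exp_pos (hI y).2
  have t0 : Tendsto (fun L => heatV (X L) t y) atTop (𝓝 (heatV X' t y)) :=
    tendsto_integral_filter_of_dominated_convergence _
      (hev.mono fun L hL => (hL.1.comp (measurable_shf_right t y)).aestronglyMeasurable)
      (hev.mono fun L hL => Eventually.of_forall fun z => by
        rw [Real.norm_eq_abs, abs_of_nonneg (hL.2.2 _).1]; exact (hL.2.2 _).2.1)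
      (hI y).1 (Eventually.of_forall fun z => (hlim _).1)
  have t1 : Tendsto (fun L => heatV (fun x => Real.exp (m * X L x)) t y) atTop
      (𝓝 (heatV (fun x => Real.exp (m * X' x)) t y)) :=
    tendsto_integral_filter_of_dominated_convergence _
      (hev.mono fun L hL =>
        ((hL.1.comp (measurable_shf_right t y)).const_mul m).exp.aestronglyMeasurable)
      (hev.mono fun L hL => Eventually.of_forall fun z => by
        rw [Real.norm_eq_abs, Real.abs_exp]
        exact Real.exp_le_exp.2 (mul_le_mul_of_nonneg_left (hL.2.2 _).2.1 hm))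
      (hI y).2 (Eventually.of_forall fun z =>
        (Real.continuous_exp.tendsto _).comp ((hlim _).1.const_mul m))
  have t2 : Tendsto (fun L => heatV (fun x => Real.exp (m * X L x) * η L x) t y) atTop
      (𝓝 (heatV (fun x => Real.exp (m * X' x) * η' x) t y)) :=
    tendsto_integral_filter_of_dominated_convergence _
      (hev.mono fun L hL =>
        (((hL.1.comp (measurable_shf_right t y)).const_mul m).exp.mul
          (hL.2.1.comp (measurable_shf_right t y))).aestronglyMeasurable)
      (hev.mono fun L hL => Eventually.of_forall fun z => by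
        rw [Real.norm_eq_abs, abs_mul, Real.abs_exp]
        exact mul_le_mul (Real.exp_le_exp.2 (mul_le_mul_of_nonneg_left (hL.2.2 _).2.1 hm))
          (hL.2.2 _).2.2 (abs_nonneg _) (Real.exp_pos _).le)
      ((hI y).2.mul_const B) (Eventually.of_forall fun z =>
        ((Real.continuous_exp.tendsto _).comp ((hlim _).1.const_mul m)).mul (hlim _).2)
  refine ⟨?_, t2.div t1 hpos.ne'⟩
  simp only [lstep]
  split
  · exact t0
  · exact (t1.log hpos.ne').div_const m

theorem potV_conv {m d : Fin (r + 1) → ℝ} (hm : ∀ j, 0 ≤ m j) {u : ℝ → (ι → ℝ) → ℝ}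
    {u' : (ι → ℝ) → ℝ} {θ : ℝ → (ι → ℝ) → ℝ} {θ' : (ι → ℝ) → ℝ} {B : ℝ} (h : Conv u u' θ θ' B)
    (hI : ∀ k ≤ r, Intg (m (idx r k)) (d (idx r k)) (potV m d u' k)) :
    ∀ k ≤ r + 1, Conv (fun L => potV m d (u L) k) (potV m d u' k)
      (fun L => insV m d (u L) (θ L) k) (insV m d u' θ' k) B := by
  intro k
  induction k with
  | zero => exact fun _ => h
  | succ k ih =>
    intro hk
    have hk' : k ≤ r := by omega
    simp only [potV_succ _ _ _ hk', insV_succ _ _ _ _ hk']
    exact conv_step (hm _) (ih (by omega)) (hI k hk')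

end Vale.Agent.P166F.Low
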