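import Vale.Agent.P157.Low.CascadeUp
import Vale.Agent.P166N.Lower
import Vale.Agent.P166F.Low.Closed.Nest

/-!
P166: one step of the nested averages on a diagonal quadratic form plus a function of one linear form.
-/

namespace Vale.Agent.P166F.Low

open MeasureTheory ProbabilityTheory Filter Vale.Agent.P157.Low
open Vale.Agent.P166W (gauss)

variable {ι : Type} [Fintype ι]

/-- A `1`-Lipschitz function. -/
def Lip1 (φ : ℝ → ℝ) : Prop := ∀ x y, |φ x - φ y| ≤ |x - y|

lemma Lip1.continuous {φ : ℝ → ℝ} (h : Lip1 φ) : Continuous φ :=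
  (LipschitzWith.of_dist_le_mul fun x y => by
    simpa [Real.dist_eq] using h x y : LipschitzWith 1 φ).continuous

lemma Lip1.abs_le {φ : ℝ → ℝ} (h : Lip1 φ) (x : ℝ) : |φ x| ≤ |φ 0| + |x| := by
  have := h x 0
  simp only [sub_zero] at this
  linarith [abs_sub_abs_le_abs_sub (φ x) (φ 0)]

lemma integrable_exp_lip {F : (ι → ℝ) → ℝ} (hF : Measurable F) {K : ℝ} {k : ι → ℝ}
    (h : ∀ u, F u ≤ K + ∑ i, k i * |u i|) : Integrable (fun u => Real.exp (F u)) (gauss ι) := by
  have hp : Integrable (fun u : ι → ℝ => ∏ i, Real.exp (k i * |u i|)) (gauss ι) :=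
    Integrable.fintype_prod fun i => integrable_exp_abs (k i)
  refine (hp.const_mul (Real.exp K)).mono' hF.exp.aestronglyMeasurable
    (Eventually.of_forall fun u => ?_)
  rw [Real.norm_eq_abs, Real.abs_exp, ← Real.exp_sum, ← Real.exp_add]
  exact Real.exp_le_exp.2 (h u)

lemma integrable_exp_shift {φ : ℝ → ℝ} (hφ : Lip1 φ) (m a b : ℝ) :
    Integrable (fun z => Real.exp (m * φ (a + b * z))) (gaussianReal 0 1) := by
  refine ((integrable_exp_abs (|m| * |b|)).const_mul (Real.exp (|m| * (|φ 0| + |a|)))).mono'
    ((hφ.continuous.comp (by fun_prop : Continuous fun z => a + b * z)).const_smul m).rexp.aestronglyMeasurable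
    (Eventually.of_forall fun z => ?_)
  rw [Real.norm_eq_abs, Real.abs_exp, ← Real.exp_add]
  refine Real.exp_le_exp.2 ((le_abs_self _).trans ?_)
  rw [abs_mul]
  have := (hφ.abs_le (a + b * z)).trans (add_le_add le_rfl (abs_add_le a (b * z)))
  rw [abs_mul b z] at this
  have := mul_le_mul_of_nonneg_left this (abs_nonneg m)
  linarith

lemma integrable_shift {φ : ℝ → ℝ} (hφ : Lip1 φ) (a b : ℝ) :
    Integrable (fun z => φ (a + b * z)) (gaussianReal 0 1) := by
  refine Integrable.mono' (g := fun z => (|φ 0| + |a|) + |b| * |z|)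
    ((integrable_const _).add ((IsGaussian.integrable_id (μ := gaussianReal 0 1)).abs.const_mul _))
    (hφ.continuous.comp (by fun_prop : Continuous fun z => a + b * z)).aestronglyMeasurable
    (Eventually.of_forall fun z => ?_)
  rw [Real.norm_eq_abs]
  have := (hφ.abs_le (a + b * z)).trans (add_le_add le_rfl (abs_add_le a (b * z)))
  rw [abs_mul b z] at this
  linarith

lemma heat_exp_pos {φ : ℝ → ℝ} (hφ : Lip1 φ) (m τ a : ℝ) :
    0 < heat (fun x => Real.exp (m * φ x)) τ a :=
  integral_exp_pos (integrable_exp_shift hφ m a (Real.sqrt τ))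

lemma lip1_potStep {φ : ℝ → ℝ} (hφ : Lip1 φ) {m : ℝ} (hm : 0 ≤ m) (τ : ℝ) :
    Lip1 (potStep m τ φ) := by
  have key : ∀ x y, potStep m τ φ x ≤ potStep m τ φ y + |x - y| := fun x y => by
    have hp : ∀ z, φ (x + Real.sqrt τ * z) ≤ φ (y + Real.sqrt τ * z) + |x - y| := fun z => by
      have := (abs_le.1 (hφ (x + Real.sqrt τ * z) (y + Real.sqrt τ * z))).2
      rw [add_sub_add_right_eq_sub] at this
      linarith
    simp only [potStep]
    split
    · simp only [heat]
      refine (integral_mono (integrable_shift hφ _ _)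
        ((integrable_shift hφ _ _).add (integrable_const _)) hp).trans ?_
      simp only [Pi.add_apply]
      rw [integral_add (integrable_shift hφ _ _) (integrable_const _)]
      simp
    · next hm0 =>
      have hmp : 0 < m := lt_of_le_of_ne hm (Ne.symm hm0)
      rw [div_add' _ _ _ hm0, div_le_div_iff_of_pos_right hmp,
        show |x - y| * m = Real.log (Real.exp (|x - y| * m)) by rw [Real.log_exp],
        ← Real.log_mul (heat_exp_pos hφ m τ y).ne' (Real.exp_pos _).ne']
      refine Real.log_le_log (heat_exp_pos hφ m τ x) ?_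
      simp only [heat]
      rw [← integral_mul_const]
      refine integral_mono (integrable_exp_shift hφ _ _ _)
        ((integrable_exp_shift hφ _ _ _).mul_const _) fun z => ?_
      rw [← Real.exp_add]
      refine Real.exp_le_exp.2 ?_
      linarith [mul_le_mul_of_nonneg_left (hp z) hm]
  intro x y
  rw [abs_sub_le_iff]
  exact ⟨by linarith [key x y], by linarith [key y x, abs_sub_comm x y]⟩

/-- The coefficients of the linear form at total variance `D`. -/
noncomputable def wD (lam w : ι → ℝ) (D : ℝ) (i : ι) : ℝ := w i / (1 - D * lam i)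

/-- The quadratic form at total variance `D`. -/
noncomputable def quad (lam : ι → ℝ) (D : ℝ) (x : ι → ℝ) : ℝ :=
  (∑ i, lam i / (1 - D * lam i) * x i ^ 2) / 2

/-- The quadratic form plus a function of the linear form. -/
noncomputable def ridge (lam w : ι → ℝ) (A D : ℝ) (φ : ℝ → ℝ) (x : ι → ℝ) : ℝ :=
  A + quad lam D x + φ (∑ i, wD lam w D i * x i)

/-- The increment of variance of one coordinate from `D` to `D'`. -/
noncomputable def vinc (lam : ι → ℝ) (t D D' : ℝ) (i : ι) : ℝ :=
  t / ((1 - D * lam i) * (1 - D' * lam i))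

/-- The increment of variance of the linear form. -/
noncomputable def svar (lam w : ι → ℝ) (t D D' : ℝ) : ℝ := ∑ i, w i ^ 2 * vinc lam t D D' i

/-- The increment of the constant. -/
noncomputable def cinc (lam : ι → ℝ) (m t D D' : ℝ) : ℝ :=
  if m = 0 then t * (∑ i, lam i / (1 - D * lam i)) / 2
  else (∑ i, (Real.log (1 - D * lam i) - Real.log (1 - D' * lam i))) / (2 * m)

/-- The point reached by the tilted noise. -/
noncomputable def tnew (lam : ι → ℝ) (t D D' : ℝ) (y u : ι → ℝ) (i : ι) : ℝ :=
  y i * (1 - D * lam i) / (1 - D' * lam i) +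
    Real.sqrt (vinc lam t D D' i) * (1 - D * lam i) * u i

variable {lam w : ι → ℝ} {m t D D' A : ℝ} {φ : ℝ → ℝ}

/-- The data of one step. -/
structure StepOK (lam : ι → ℝ) (m t D D' : ℝ) : Prop where
  mn : 0 ≤ m
  tn : 0 ≤ t
  eq : D' = D + m * t
  lo : ∀ i, D * lam i < 1
  hi : ∀ i, D' * lam i < 1

omit [Fintype ι] in
lemma StepOK.vinc_nonneg (h : StepOK lam m t D D') (i : ι) : 0 ≤ vinc lam t D D' i :=
  div_nonneg h.tn (mul_nonneg (sub_nonneg.2 (h.lo i).le) (sub_nonneg.2 (h.hi i).le))

lemma StepOK.svar_nonneg (h : StepOK lam m t D D') : 0 ≤ svar lam w t D D' :=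
  Finset.sum_nonneg fun i _ => mul_nonneg (sq_nonneg _) (h.vinc_nonneg i)

lemma measurable_quad (lam : ι → ℝ) (D : ℝ) : Measurable (quad lam D) := by unfold quad; fun_prop

lemma measurable_lin (lam w : ι → ℝ) (D : ℝ) : Measurable fun x : ι → ℝ => ∑ i, wD lam w D i * x i := by
  fun_prop

omit [Fintype ι] in
lemma measurable_tnew (lam : ι → ℝ) (t D D' : ℝ) (y : ι → ℝ) :
    Measurable fun u : ι → ℝ => tnew lam t D D' y u := by
  unfold tnew; fun_prop

lemma alg_mean {p q m t l s y : ℝ} (hp : p ≠ 0) (hq : q ≠ 0) (e : q = p - m * t * l) (hs : s * s = t) :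
    y + s * (m * (l / p) * s * y / (q / p)) = y * p / q := by
  have h : s * (m * (l / p) * s * y / (q / p)) = t * m * l * y / q := by
    rw [← hs]; field_simp
  rw [h]
  field_simp
  linear_combination y * e

lemma alg_const {p q m t l s y : ℝ} (hp : p ≠ 0) (hq : q ≠ 0) (e : q = p - m * t * l) (hs : s * s = t) :
    m * (l / p * y ^ 2) / 2 + (m * (l / p) * s * y) ^ 2 / (2 * (q / p)) = m * (l / q * y ^ 2) / 2 := by
  have h : (m * (l / p) * s * y) ^ 2 / (2 * (q / p)) = t * m ^ 2 * l ^ 2 * y ^ 2 / (2 * (p * q)) := by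
    rw [← hs]; field_simp
  rw [h]
  field_simp
  linear_combination (m * l * y ^ 2) * e

lemma alg_sd {sp sq p st : ℝ} (hp : sp * sp = p) (h1 : sp ≠ 0) (h2 : sq ≠ 0) :
    st * (sp / sq) = st / (sp * sq) * p := by
  subst hp
  field_simp

/-- The quadratic form absorbed into the noise. -/
lemma quad_tilt (h : StepOK lam m t D D') {F : (ι → ℝ) → ℝ} (hF : Measurable F) (y : ι → ℝ) :
    heatV (fun x => Real.exp (m * quad lam D x) * F x) t y =
        Real.exp ((∑ i, (Real.log (1 - D * lam i) - Real.log (1 - D' * lam i))) / 2 +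
            m * quad lam D' y) *
          ∫ u, F (tnew lam t D D' y u) ∂gauss ι ∧
      (Integrable (fun u => F (tnew lam t D D' y u)) (gauss ι) →
        Integrable (fun z => Real.exp (m * quad lam D (shf t y z)) * F (shf t y z)) (gauss ι)) := by
  set α : ι → ℝ := fun i => t * (m * (lam i / (1 - D * lam i)))
  set β : ι → ℝ := fun i => m * (lam i / (1 - D * lam i)) * Real.sqrt t * y i
  have hd : ∀ i, 0 < 1 - D * lam i := fun i => sub_pos.2 (h.lo i)
  have hd' : ∀ i, 0 < 1 - D' * lam i := fun i => sub_pos.2 (h.hi i)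
  have he : ∀ i, 1 - D' * lam i = (1 - D * lam i) - m * t * lam i := fun i => by rw [h.eq]; ring
  have hα1 : ∀ i, 1 - α i = (1 - D' * lam i) / (1 - D * lam i) := fun i => by
    rw [he i, sub_div, div_self (hd i).ne']
    simp only [α]
    ring
  have hα : ∀ i, α i < 1 := fun i => by
    have := div_pos (hd' i) (hd i)
    linarith [hα1 i]
  have hs2 : Real.sqrt t * Real.sqrt t = t := Real.mul_self_sqrt h.tn
  have hmean : ∀ i, y i + Real.sqrt t * (β i / (1 - α i)) = y i * (1 - D * lam i) / (1 - D' * lam i) :=
    fun i => by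
      rw [hα1 i]
      exact alg_mean (hd i).ne' (hd' i).ne' (he i) hs2
  have hsd : ∀ i, Real.sqrt t * tsig (α i) = Real.sqrt (vinc lam t D D' i) * (1 - D * lam i) :=
    fun i => by
      rw [tsig, hα1 i, vinc, Real.sqrt_div h.tn, Real.sqrt_mul (hd i).le,
        Real.sqrt_div (hd' i).le, inv_div]
      exact alg_sd (Real.mul_self_sqrt (hd i).le) (Real.sqrt_pos.2 (hd i)).ne'
        (Real.sqrt_pos.2 (hd' i)).ne'
  have hpt : ∀ u, shf t y (fun i => β i / (1 - α i) + tsig (α i) * u i) = tnew lam t D D' y u :=
    fun u => by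
      funext i
      simp only [shf, tnew, ← hmean i, ← hsd i]
      ring
  have hq : ∀ z, m * quad lam D (shf t y z) =
      m * quad lam D y + ∑ i, (α i * z i ^ 2 / 2 + β i * z i) := fun z => by
    simp only [quad, Finset.sum_div, Finset.mul_sum, ← Finset.sum_add_distrib]
    refine Finset.sum_congr rfl fun i _ => ?_
    simp only [shf, α, β]
    linear_combination (m * (lam i / (1 - D * lam i)) * z i ^ 2 / 2) * hs2
  have hC : Real.exp (m * quad lam D y) * ∏ i, tmass (α i) (β i) =
      Real.exp ((∑ i, (Real.log (1 - D * lam i) - Real.log (1 - D' * lam i))) / 2 +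
        m * quad lam D' y) := by
    simp only [tmass, ← Real.exp_sum, ← Real.exp_add]
    congr 1
    simp only [quad, Finset.sum_div, Finset.mul_sum, ← Finset.sum_add_distrib]
    refine Finset.sum_congr rfl fun i _ => ?_
    rw [hα1 i, Real.log_div (hd' i).ne' (hd i).ne']
    simp only [β]
    linear_combination alg_const (y := y i) (hd i).ne' (hd' i).ne' (he i) hs2
  set G : (ι → ℝ) → ℝ := fun z => Real.exp (m * quad lam D y) * F (shf t y z)
  have hG : Measurable G := (hF.comp (measurable_shf_right t y)).const_mul _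
  obtain ⟨h1, h2⟩ := gauss_tilt_vec hα β hG
  have e : ∀ z, Real.exp (m * quad lam D (shf t y z)) * F (shf t y z) =
      Real.exp (∑ i, (α i * z i ^ 2 / 2 + β i * z i)) * G z := fun z => by
    rw [hq z, Real.exp_add]; simp only [G]; ring
  constructor
  · rw [heatV_eq]
    simp only [e]
    rw [h1]
    simp only [G, hpt, integral_const_mul]
    rw [← hC]
    ring
  · intro hi
    simp only [e]
    refine h2 ?_
    simp only [G, hpt]
    exact hi.const_mul _

/-- The linear form along the tilted noise. -/
lemma lin_tnew (h : StepOK lam m t D D') (y u : ι → ℝ) :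
    ∑ i, wD lam w D i * tnew lam t D D' y u i =
      (∑ i, wD lam w D' i * y i) + ∑ i, w i * Real.sqrt (vinc lam t D D' i) * u i := by
  rw [← Finset.sum_add_distrib]
  refine Finset.sum_congr rfl fun i _ => ?_
  have h1 : 1 - D * lam i ≠ 0 := (sub_pos.2 (h.lo i)).ne'
  simp only [wD, tnew]
  field_simp

lemma sqrt_svar (h : StepOK lam m t D D') :
    ∑ i, (w i * Real.sqrt (vinc lam t D D' i)) ^ 2 = svar lam w t D D' :=
  Finset.sum_congr rfl fun i _ => by rw [mul_pow, Real.sq_sqrt (h.vinc_nonneg i)]

lemma integral_lin (h : StepOK lam m t D D') {H : ℝ → ℝ} (hH : Measurable H) (y : ι → ℝ) :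
    ∫ u, H (∑ i, wD lam w D i * tnew lam t D D' y u i) ∂gauss ι =
      heat H (svar lam w t D D') (∑ i, wD lam w D' i * y i) := by
  simp only [lin_tnew h]
  rw [integral_gauss_sum _ (H := fun v => H ((∑ i, wD lam w D' i * y i) + v)) (by fun_prop),
    sqrt_svar h]
  rfl

lemma exp_ridge (m A : ℝ) (x : ι → ℝ) (g : ℝ) :
    Real.exp (m * ridge lam w A D φ x) * g =
      Real.exp (m * A) * (Real.exp (m * quad lam D x) *
        (Real.exp (m * φ (∑ i, wD lam w D i * x i)) * g)) := by
  rw [ridge, mul_add, mul_add, Real.exp_add, Real.exp_add]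
  ring

/-- The common factor of one step. -/
noncomputable def stepC (lam : ι → ℝ) (m A D D' : ℝ) (y : ι → ℝ) : ℝ :=
  Real.exp (m * A) *
    Real.exp ((∑ i, (Real.log (1 - D * lam i) - Real.log (1 - D' * lam i))) / 2 + m * quad lam D' y)

lemma stepC_pos (lam : ι → ℝ) (m A D D' : ℝ) (y : ι → ℝ) : 0 < stepC lam m A D D' y := by
  unfold stepC; positivity

lemma ridge_num (h : StepOK lam m t D D') (hφ : Lip1 φ) {η : (ι → ℝ) → ℝ} (hη : Measurable η)
    (y : ι → ℝ) :
    heatV (fun x => Real.exp (m * ridge lam w A D φ x) * η x) t y = stepC lam m A D D' y *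
        ∫ u, Real.exp (m * φ (∑ i, wD lam w D i * tnew lam t D D' y u i)) *
          η (tnew lam t D D' y u) ∂gauss ι ∧
      (Integrable (fun u => Real.exp (m * φ (∑ i, wD lam w D i * tnew lam t D D' y u i)) *
          η (tnew lam t D D' y u)) (gauss ι) →
        Integrable (fun z => Real.exp (m * ridge lam w A D φ (shf t y z)) * η (shf t y z))
          (gauss ι)) := by
  have hm : Measurable fun x : ι → ℝ => Real.exp (m * φ (∑ i, wD lam w D i * x i)) * η x :=
    ((hφ.continuous.measurable.comp (measurable_lin lam w D)).const_mul m).exp.mul hη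
  obtain ⟨h1, h2⟩ := quad_tilt h hm y
  constructor
  · simp only [exp_ridge]
    rw [heatV_eq, integral_const_mul, ← heatV_eq (fun x => Real.exp (m * quad lam D x) *
      (Real.exp (m * φ (∑ i, wD lam w D i * x i)) * η x)), h1, stepC]
    ring
  · intro hi
    simp only [exp_ridge]
    exact (h2 hi).const_mul _

lemma ridge_den (h : StepOK lam m t D D') (hφ : Lip1 φ) (y : ι → ℝ) :
    heatV (fun x => Real.exp (m * ridge lam w A D φ x)) t y = stepC lam m A D D' y *
      heat (fun x => Real.exp (m * φ x)) (svar lam w t D D') (∑ i, wD lam w D' i * y i) := by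
  have h1 := (ridge_num (A := A) (w := w) h hφ measurable_const y (η := fun _ => 1)).1
  simp only [mul_one] at h1
  rw [h1, integral_lin h (H := fun v => Real.exp (m * φ v))
    (hφ.continuous.measurable.const_mul m).exp]

lemma intg_ridge (h : StepOK lam m t D D') (hφ : Lip1 φ) : Intg m t (ridge lam w A D φ) := by
  intro y
  have hc : Continuous fun x : ι → ℝ => ridge lam w A D φ x := by
    have := hφ.continuous
    unfold ridge quad
    fun_prop
  constructor
  · have h1 : ∀ i, Integrable (fun z : ι → ℝ => |z i|) (gauss ι) := fun i =>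
      P166W.PolyGrowth.integrable ⟨1, 1, fun g => by
        rw [abs_abs, pow_one, one_mul]
        linarith [Finset.single_le_sum (f := fun q => |g q|) (fun q _ => abs_nonneg _)
          (Finset.mem_univ i)]⟩ (by fun_prop)
    have h2 : ∀ i, Integrable (fun z : ι → ℝ => z i ^ 2) (gauss ι) := fun i =>
      P166W.PolyGrowth.integrable ⟨1, 2, fun g => by
        rw [abs_pow, one_mul]
        refine pow_le_pow_left₀ (abs_nonneg _) ?_ 2
        linarith [Finset.single_le_sum (f := fun q => |g q|) (fun q _ => abs_nonneg _)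
          (Finset.mem_univ i)]⟩ (by fun_prop)
    have hq : Integrable (fun z => quad lam D (shf t y z)) (gauss ι) := by
      simp only [quad, shf, add_sq, mul_pow]
      refine (integrable_finsetSum _ fun i _ => (((integrable_const _).add ?_).add
        ((h2 i).const_mul _)).const_mul _).div_const _
      refine ((P166W.PolyGrowth.integrable (F := fun z : ι → ℝ => z i) ⟨1, 1, fun g => ?_⟩
        (by fun_prop)).const_mul _).const_mul _
      rw [pow_one, one_mul]
      linarith [Finset.single_le_sum (f := fun q => |g q|) (fun q _ => abs_nonneg _)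
          (Finset.mem_univ i)]
    have hl : Integrable (fun z => φ (∑ i, wD lam w D i * shf t y z i)) (gauss ι) := by
      have e : ∀ z : ι → ℝ, ∑ i, wD lam w D i * shf t y z i =
          (∑ i, wD lam w D i * y i) + ∑ i, (wD lam w D i * Real.sqrt t) * z i := fun z => by
        simp only [shf, mul_add, Finset.sum_add_distrib, mul_assoc]
      simp only [e]
      exact integrable_gauss_sum _ (H := fun v => φ ((∑ i, wD lam w D i * y i) + v))
        (hφ.continuous.measurable.comp (measurable_const_add _)) (integrable_shift hφ _ _)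
    exact ((integrable_const A).add hq).add hl
  · have h2 := (ridge_num (A := A) (w := w) h hφ measurable_const y (η := fun _ => 1)).2
    simp only [mul_one] at h2
    refine h2 ?_
    simp only [lin_tnew h]
    exact integrable_gauss_sum _
      (H := fun v => Real.exp (m * φ ((∑ i, wD lam w D' i * y i) + v)))
      (((hφ.continuous.measurable.comp (measurable_const_add _))).const_mul m).exp
      (integrable_exp_shift hφ _ _ _)

/-- One step keeps the shape. -/
theorem lstep_ridge (h : StepOK lam m t D D') (hφ : Lip1 φ) :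
    lstep m t (ridge lam w A D φ) =
      ridge lam w (A + cinc lam m t D D') D' (potStep m (svar lam w t D D') φ) := by
  funext y
  rcases eq_or_ne m 0 with rfl | hm0
  · have hDD : D' = D := by rw [h.eq]; ring
    simp only [lstep, if_true, cinc, potStep, ridge, heatV_eq]
    have hq : ∫ z, quad lam D (shf t y z) ∂gauss ι =
        quad lam D y + t * (∑ i, lam i / (1 - D * lam i)) / 2 := by
      simp only [quad, shf]
      have i1 : ∀ i, Integrable (fun z : ι → ℝ => (y i + Real.sqrt t * z i) ^ 2) (gauss ι) := fun i => by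
        have hp := measurePreserving_eval (fun _ : ι => gaussianReal 0 1) i
        refine hp.integrable_comp_of_integrable (g := fun x => (y i + Real.sqrt t * x) ^ 2) ?_
        simp only [add_sq, mul_pow]
        exact ((integrable_const _).add (((IsGaussian.integrable_id
          (μ := gaussianReal 0 1)).const_mul _).const_mul _)).add
          (P166N.integrable_sq_gauss.const_mul _)
      rw [integral_div, integral_finsetSum _ fun i _ => (i1 i).const_mul _]
      rw [Finset.mul_sum, ← add_div, ← Finset.sum_add_distrib]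
      congr 1
      refine Finset.sum_congr rfl fun i _ => ?_
      rw [integral_const_mul, integral_eval_gauss i (g := fun x => (y i + Real.sqrt t * x) ^ 2)
        (by fun_prop)]
      simp only [add_sq, mul_pow, Real.sq_sqrt h.tn]
      have j1 : Integrable (fun z : ℝ => 2 * y i * (Real.sqrt t * z)) (gaussianReal 0 1) :=
        ((IsGaussian.integrable_id (μ := gaussianReal 0 1)).const_mul _).const_mul _
      rw [integral_add ((integrable_const (y i ^ 2)).fun_add j1)
          (P166N.integrable_sq_gauss.const_mul _),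
        integral_add (integrable_const _) j1, integral_const_mul, integral_const_mul,
        integral_const_mul, P166N.integral_sq_gauss, integral_id_gaussianReal]
      simp
      ring
    obtain ⟨iq, -⟩ := intg_ridge (A := 0) (w := (0 : ι → ℝ)) h (φ := fun _ => 0)
      (fun x y => by simp) y
    simp only [ridge, add_zero, zero_add] at iq
    have il : Integrable (fun z => φ (∑ i, wD lam w D i * shf t y z i)) (gauss ι) := by
      have := ((intg_ridge (A := 0) (w := w) h hφ y).1.sub iq)
      refine this.congr (Eventually.of_forall fun z => ?_)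
      simp [ridge]
    rw [integral_add ((integrable_const A).fun_add iq) il, integral_add (integrable_const A) iq, hq,
      hDD]
    have e : ∀ z : ι → ℝ, ∑ i, wD lam w D i * shf t y z i =
        (∑ i, wD lam w D i * y i) + ∑ i, (wD lam w D i * Real.sqrt t) * z i := fun z => by
      simp only [shf, mul_add, Finset.sum_add_distrib, mul_assoc]
    simp only [e]
    rw [integral_gauss_sum _ (H := fun v => φ ((∑ i, wD lam w D i * y i) + v))
      (hφ.continuous.measurable.comp (measurable_const_add _))]
    simp only [heat, integral_const, probReal_univ, smul_eq_mul, one_mul]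
    have e2 : ∑ i, (wD lam w D i * Real.sqrt t) ^ 2 = svar lam w t D D := by
      refine Finset.sum_congr rfl fun i _ => ?_
      rw [mul_pow, Real.sq_sqrt h.tn, wD, vinc, div_pow]
      ring
    rw [e2]
    ring
  · simp only [lstep, hm0, if_false, cinc, potStep, ridge]
    rw [show (fun x => Real.exp (m * (A + quad lam D x + φ (∑ i, wD lam w D i * x i)))) =
      fun x => Real.exp (m * ridge lam w A D φ x) from rfl, ridge_den h hφ y,
      Real.log_mul (stepC_pos _ _ _ _ _ _).ne' (heat_exp_pos hφ _ _ _).ne', stepC,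
      Real.log_mul (Real.exp_pos _).ne' (Real.exp_pos _).ne', Real.log_exp, Real.log_exp]
    generalize (∑ i, (Real.log (1 - D * lam i) - Real.log (1 - D' * lam i))) = S
    field_simp
    ring

/-- An insertion of the linear form follows the scalar step. -/
theorem istep_ridge (h : StepOK lam m t D D') (hφ : Lip1 φ) {η : ℝ → ℝ} (hη : Measurable η) :
    istep m t (ridge lam w A D φ) (fun x => η (∑ i, wD lam w D i * x i)) =
      fun y => insStep m (svar lam w t D D') φ η (∑ i, wD lam w D' i * y i) := by
  funext y
  simp only [istep]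
  rw [(ridge_num (η := fun x => η (∑ i, wD lam w D i * x i)) h hφ (hη.comp (measurable_lin lam w D)) y).1, ridge_den h hφ y,
    mul_div_mul_left _ _ (stepC_pos _ _ _ _ _ _).ne', insStep]
  congr 1
  exact integral_lin h (H := fun v => Real.exp (m * φ v) * η v)
    ((hφ.continuous.measurable.const_mul m).exp.mul hη) y

/-- An insertion of a coordinate orthogonal to the linear form is averaged along it. -/
theorem istep_coord (h : StepOK lam m t D D') (hφ : Lip1 φ) {g : ℝ → ℝ} (hg : Measurable g) {l : ι}
    (hl : w l = 0) :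
    istep m t (ridge lam w A D φ) (fun x => g (x l / (1 - D * lam l))) =
      fun y => heat g (vinc lam t D D' l) (y l / (1 - D' * lam l)) := by
  classical
  funext y
  simp only [istep]
  rw [(ridge_num (η := fun x => g (x l / (1 - D * lam l))) h hφ (hg.comp (by fun_prop)) y).1, ridge_den h hφ y,
    mul_div_mul_left _ _ (stepC_pos _ _ _ _ _ _).ne', div_eq_iff (heat_exp_pos hφ _ _ _).ne',
    mul_comm (heat g _ _), ← integral_lin h (H := fun v => Real.exp (m * φ v))
      (hφ.continuous.measurable.const_mul m).exp y]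
  have e : ∀ u, tnew lam t D D' y u l / (1 - D * lam l) =
      y l / (1 - D' * lam l) + Real.sqrt (vinc lam t D D' l) * u l := fun u => by
    have := (sub_pos.2 (h.lo l)).ne'
    simp only [tnew]
    field_simp
  simp only [e, lin_tnew h]
  exact gauss_coord _ (by rw [hl, zero_mul])
    (f := fun v => Real.exp (m * φ ((∑ i, wD lam w D' i * y i) + v)))
    (g := fun z => g (y l / (1 - D' * lam l) + Real.sqrt (vinc lam t D D' l) * z))
    (((hφ.continuous.measurable.comp (measurable_const_add _))).const_mul m).exp
    (hg.comp (by fun_prop))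

/-- Exponentials of coordinates grow at most linearly in the exponent. -/
theorem istep_exp (h : StepOK lam m t D D') (hφ : Lip1 φ) (i : ι) {s : ℝ} (hs : |s| ≤ 1) (y : ι → ℝ) :
    istep m t (ridge lam w A D φ) (fun x => Real.exp (s * (x i / (1 - D * lam i)))) y ≤
        Real.exp (s * (y i / (1 - D' * lam i)) + (1 / 2 + m * |w i|) * vinc lam t D D' i) ∧
      Integrable (fun z => Real.exp (m * ridge lam w A D φ (shf t y z)) *
        Real.exp (s * (shf t y z i / (1 - D * lam i)))) (gauss ι) := by
  classical
  have hη : Measurable fun x : ι → ℝ => Real.exp (s * (x i / (1 - D * lam i))) := by fun_prop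
  obtain ⟨h1, h2⟩ := ridge_num (A := A) (w := w) h hφ hη y
  set a := ∑ j, wD lam w D' j * y j
  set sd := Real.sqrt (vinc lam t D D' i)
  set β : ι → ℝ := fun j => if j = i then s * sd else 0
  have e : ∀ u, tnew lam t D D' y u i / (1 - D * lam i) = y i / (1 - D' * lam i) + sd * u i :=
    fun u => by
      have := (sub_pos.2 (h.lo i)).ne'
      simp only [tnew, sd]
      field_simp
  set c : ι → ℝ := fun j => w j * Real.sqrt (vinc lam t D D' j)
  have e2 : ∀ u : ι → ℝ, Real.exp (m * φ (∑ j, wD lam w D j * tnew lam t D D' y u j)) *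
      Real.exp (s * (tnew lam t D D' y u i / (1 - D * lam i))) =
      Real.exp (∑ j, ((0 : ℝ) * u j ^ 2 / 2 + β j * u j)) *
        (Real.exp (s * (y i / (1 - D' * lam i))) * Real.exp (m * φ (a + ∑ j, c j * u j))) := fun u => by
    rw [lin_tnew h, e u, ← Real.exp_add, ← Real.exp_add, ← Real.exp_add]
    congr 1
    simp [β, a, c]
    ring
  have hmφ : ∀ b : ℝ, Measurable fun v => Real.exp (m * φ (b + v)) := fun b =>
    (((hφ.continuous.measurable.comp (measurable_const_add b))).const_mul m).exp
  have hG : Measurable fun u : ι → ℝ =>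
      Real.exp (s * (y i / (1 - D' * lam i))) * Real.exp (m * φ (a + ∑ j, c j * u j)) :=
    ((hmφ a).comp (by fun_prop : Measurable fun u : ι → ℝ => ∑ j, c j * u j)).const_mul _
  obtain ⟨g1, g2⟩ := gauss_tilt_vec (α := fun _ : ι => (0 : ℝ)) (fun _ => one_pos) β hG
  have e3 : ∀ u : ι → ℝ, ∑ j, c j * (β j / (1 - 0) + tsig 0 * u j) =
      w i * vinc lam t D D' i * s + ∑ j, c j * u j := fun u => by
    simp [tsig, mul_add, Finset.sum_add_distrib, β, c, sd]
    linear_combination (w i * s) * Real.mul_self_sqrt (h.vinc_nonneg i)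
  have e4 : ∏ j, tmass 0 (β j) = Real.exp (s ^ 2 * vinc lam t D D' i / 2) := by
    simp [tmass, ← Real.exp_sum, ← Finset.sum_div, β, sd, mul_pow, Real.sq_sqrt (h.vinc_nonneg i)]
  simp only [e3, e4, ← add_assoc] at g1 g2
  constructor
  · simp only [istep]
    rw [h1, ridge_den h hφ y, mul_div_mul_left _ _ (stepC_pos _ _ _ _ _ _).ne',
      div_le_iff₀ (heat_exp_pos hφ _ _ _)]
    simp only [e2]
    rw [g1, integral_const_mul]
    rw [integral_gauss_sum c (H := fun v => Real.exp (m * φ (a + w i * vinc lam t D D' i * s + v)))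
      (hmφ _), sqrt_svar h]
    have hb : ∀ z : ℝ, Real.exp (m * φ (a + w i * vinc lam t D D' i * s +
        Real.sqrt (svar lam w t D D') * z)) ≤
        Real.exp (m * (|w i| * vinc lam t D D' i)) *
          Real.exp (m * φ (a + Real.sqrt (svar lam w t D D') * z)) := fun z => by
      rw [← Real.exp_add, ← mul_add]
      refine Real.exp_le_exp.2 (mul_le_mul_of_nonneg_left ?_ h.mn)
      have := (abs_le.1 (hφ (a + w i * vinc lam t D D' i * s + Real.sqrt (svar lam w t D D') * z)
        (a + Real.sqrt (svar lam w t D D') * z))).2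
      rw [add_sub_add_right_eq_sub, add_sub_cancel_left, abs_mul, abs_mul,
        abs_of_nonneg (h.vinc_nonneg i)] at this
      nlinarith [mul_le_mul_of_nonneg_left hs (mul_nonneg (abs_nonneg (w i)) (h.vinc_nonneg i))]
    have hle := integral_mono (integrable_exp_shift hφ m _ _)
      ((integrable_exp_shift hφ m _ _).const_mul _) hb
    rw [integral_const_mul] at hle
    have hs2 : s ^ 2 ≤ 1 := by
      rw [← sq_abs]; exact pow_le_one₀ (abs_nonneg s) hs
    calc _ ≤ Real.exp (vinc lam t D D' i / 2) * (Real.exp (s * (y i / (1 - D' * lam i))) *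
          (Real.exp (m * (|w i| * vinc lam t D D' i)) *
            heat (fun x => Real.exp (m * φ x)) (svar lam w t D D') a)) := by
          refine mul_le_mul ?_ (mul_le_mul_of_nonneg_left hle (Real.exp_pos _).le) ?_ (Real.exp_pos _).le
          · exact Real.exp_le_exp.2 (by
              have := mul_le_mul_of_nonneg_right hs2 (h.vinc_nonneg i)
              linarith)
          · exact mul_nonneg (Real.exp_pos _).le (integral_nonneg fun z => (Real.exp_pos _).le)
      _ = _ := by
          rw [← mul_assoc, ← mul_assoc, ← Real.exp_add, ← Real.exp_add]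
          congr 2
          ring
  · refine h2 ?_
    simp only [e2]
    refine g2 (Integrable.const_mul ?_ _)
    exact integrable_gauss_sum c (hmφ _) (integrable_exp_shift hφ _ _ _)

end Vale.Agent.P166F.Low
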